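import Vale.Agent.P092.H132.RegFam
import Vale.Agent.P092.H790.Ind

/-!
P092 (helper132), block [EX]: the covariant family of positive operators of an induced
representation.
-/

set_option linter.all false

open scoped InnerProductSpace ComplexOrder
open Filter Topology ContinuousLinearMap MeasureTheory

namespace Vale.Agent.P092.H132

open Vale.Agent.P092.H160 Vale.Agent.P092.H553 Vale.Agent.P092.H432 Vale.Agent.P092.H790

section meas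

variable {Γ Λ ι : Type} [Group Γ] [Group Λ] [Fintype ι] {t : ℝ}
  {R : Λ → (Ell2 (Γ × ι) →L[ℂ] Ell2 (Γ × ι))} {a : Γ × ι → ℝ} (hB : Bes 1 (bf R a))

theorem e0_empty : E0 hB (∅ : Set Λ) = 0 := by
  have h := E0_add hB (∅ : Set Λ) ∅ (disjoint_bot_left)
  rw [Set.union_empty] at h
  exact left_eq_add.mp h

open Classical in
theorem e0_finset (A : Set Λ) (s : Finset Λ) :
    E0 hB (A ∩ (s : Set Λ)) = ∑ w ∈ s, if w ∈ A then E0 hB {w} else 0 := by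
  classical
  induction s using Finset.induction_on with
  | empty => rw [Finset.coe_empty, Set.inter_empty, e0_empty, Finset.sum_empty]
  | insert w s hw ih =>
    rw [Finset.sum_insert hw, ← ih]
    by_cases h : w ∈ A
    · rw [if_pos h, ← E0_add hB]
      · congr 1
        ext v
        simp only [Finset.coe_insert, Set.mem_inter_iff, Set.mem_insert_iff, Finset.mem_coe,
          Set.mem_union, Set.mem_singleton_iff]
        constructor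
        · rintro ⟨h1, h2 | h2⟩
          · exact Or.inl h2
          · exact Or.inr ⟨h1, h2⟩
        · rintro (h1 | ⟨h1, h2⟩)
          · rw [h1]; exact ⟨h, Or.inl rfl⟩
          · exact ⟨h1, Or.inr h2⟩
      · rw [Set.disjoint_singleton_left]
        intro h1
        exact hw h1.2
    · rw [if_neg h, zero_add]
      congr 1
      ext v
      simp only [Finset.coe_insert, Set.mem_inter_iff, Set.mem_insert_iff, Finset.mem_coe]
      constructor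
      · rintro ⟨h1, h2 | h2⟩
        · exact absurd (h2 ▸ h1) h
        · exact ⟨h1, h2⟩
      · rintro ⟨h1, h2⟩
        exact ⟨h1, Or.inr h2⟩

theorem e0_sub (A : Set Λ) (s : Finset Λ) :
    E0 hB A = E0 hB (A ∩ (s : Set Λ)) + E0 hB (A \ (s : Set Λ)) := by
  rw [← E0_add hB _ _ (Set.disjoint_sdiff_right.mono_left Set.inter_subset_right),
    Set.inter_union_diff]

theorem e0_norm_le (A A' : Set Λ) (h : A ⊆ A') (y : Ell2 (Γ × ι)) :
    ‖E0 hB A y‖ ≤ ‖adjoint (anOp hB)‖ * ‖mo (i1 A') (anOp hB y)‖ := by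
  change ‖adjoint (anOp hB) (mo (i1 A) (anOp hB y))‖ ≤ _
  refine ((adjoint (anOp hB)).le_opNorm _).trans ?_
  gcongr
  have h1 : mo (i1 A) (anOp hB y) = mo (i1 A) (mo (i1 A') (anOp hB y)) := by
    apply ext_inner_dl
    rintro ⟨u, x⟩
    rw [mo_apply (abs_i1_le A), mo_apply (abs_i1_le A), mo_apply (abs_i1_le A')]
    unfold i1
    by_cases hu : u ∈ A
    · rw [if_pos hu, if_pos (h hu), Complex.ofReal_one, one_mul, one_mul]
    · rw [if_neg hu, Complex.ofReal_zero, zero_mul, zero_mul]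
  rw [h1]
  refine (norm_mo_le (abs_i1_le A) _).trans ?_
  rw [one_mul]

/-- the tails of a square summable family -/
theorem tail_tendsto (ζ : Ell2 (Λ × (Γ × ι))) :
    Tendsto (fun s : Finset Λ => ‖mo (i1 ((s : Set Λ)ᶜ)) ζ‖) atTop (𝓝 0) := by
  have hsum : HasSum (fun p : Λ × (Γ × ι) => ‖ζ p‖ ^ 2) (‖ζ‖ ^ 2) := by
    have h := lp.hasSum_norm (p := 2) (by norm_num) ζ
    simpa using h
  have hf := hsum.summable
  -- the marginal
  have hf1 : Summable fun w : Λ => ∑' x : Γ × ι, ‖ζ (w, x)‖ ^ 2 := hf.prod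
  have h2 := hf1.tendsto_cofinite_zero
  have h3 : ∀ s : Finset Λ, ‖mo (i1 ((s : Set Λ)ᶜ)) ζ‖ ^ 2 =
      (∑' w, ∑' x : Γ × ι, ‖ζ (w, x)‖ ^ 2) - ∑ w ∈ s, ∑' x : Γ × ι, ‖ζ (w, x)‖ ^ 2 := by
    intro s
    have h4 := lp.hasSum_norm (p := 2) (by norm_num) (mo (i1 ((s : Set Λ)ᶜ)) ζ)
    have h5 : HasSum (fun p : Λ × (Γ × ι) => ‖(mo (i1 ((s : Set Λ)ᶜ)) ζ) p‖ ^ 2)
        (‖mo (i1 ((s : Set Λ)ᶜ)) ζ‖ ^ 2) := by simpa using h4
    have h6 : ∀ p, ‖(mo (i1 ((s : Set Λ)ᶜ)) ζ) p‖ ^ 2 =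
        i1 ((s : Set Λ)ᶜ) p * ‖ζ p‖ ^ 2 := by
      intro p
      rw [mo_apply (abs_i1_le _), norm_mul, Complex.norm_real, Real.norm_eq_abs, mul_pow, sq_abs]
      congr 1
      unfold i1
      split_ifs <;> simp
    have h7 : ‖mo (i1 ((s : Set Λ)ᶜ)) ζ‖ ^ 2 = ∑' w, ∑' x : Γ × ι,
        i1 ((s : Set Λ)ᶜ) (w, x) * ‖ζ (w, x)‖ ^ 2 := by
      rw [← h5.tsum_eq, h5.summable.tsum_prod]
      refine tsum_congr fun w => tsum_congr fun x => ?_
      rw [h6]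
    have h8 : ∀ w, (∑' x : Γ × ι, i1 ((s : Set Λ)ᶜ) (w, x) * ‖ζ (w, x)‖ ^ 2) =
        ((s : Set Λ)ᶜ).indicator (fun w => ∑' x : Γ × ι, ‖ζ (w, x)‖ ^ 2) w := by
      intro w
      by_cases hw : w ∈ (s : Set Λ)ᶜ
      · rw [Set.indicator_of_mem hw]
        refine tsum_congr fun x => ?_
        unfold i1
        rw [if_pos hw, one_mul]
      · rw [Set.indicator_of_notMem hw]
        have : ∀ x : Γ × ι, i1 ((s : Set Λ)ᶜ) (w, x) * ‖ζ (w, x)‖ ^ 2 = 0 := fun x => by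
          unfold i1
          rw [if_neg hw, zero_mul]
        simp only [this, tsum_zero]
    rw [h7]
    simp only [h8]
    rw [← hf1.sum_add_tsum_compl (s := s), add_sub_cancel_left]
    exact (tsum_subtype ((s : Set Λ)ᶜ) (fun w => ∑' x : Γ × ι, ‖ζ (w, x)‖ ^ 2)).symm
  have h9 : Tendsto (fun s : Finset Λ => (∑' w, ∑' x : Γ × ι, ‖ζ (w, x)‖ ^ 2) -
      ∑ w ∈ s, ∑' x : Γ × ι, ‖ζ (w, x)‖ ^ 2) atTop (𝓝 0) := by
    have := (hf1.hasSum).const_sub (∑' w, ∑' x : Γ × ι, ‖ζ (w, x)‖ ^ 2)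
    rwa [sub_self] at this
  have h10 : Tendsto (fun s : Finset Λ => ‖mo (i1 ((s : Set Λ)ᶜ)) ζ‖ ^ 2) atTop (𝓝 0) := by
    simp only [h3]; exact h9
  have h11 := (Real.continuous_sqrt.tendsto 0).comp h10
  rw [Real.sqrt_zero] at h11
  refine h11.congr fun s => ?_
  rw [Function.comp_apply, Real.sqrt_sq (norm_nonneg _)]

theorem e0_tendsto (A : Set Λ) (y : Ell2 (Γ × ι)) :
    Tendsto (fun s : Finset Λ => E0 hB (A ∩ (s : Set Λ)) y) atTop (𝓝 (E0 hB A y)) := by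
  rw [tendsto_iff_norm_sub_tendsto_zero]
  have h1 := (tail_tendsto (anOp hB y)).const_mul ‖adjoint (anOp hB)‖
  rw [mul_zero] at h1
  refine squeeze_zero (fun s => norm_nonneg _) (fun s => ?_) h1
  have h2 : E0 hB (A ∩ (s : Set Λ)) y - E0 hB A y = -(E0 hB (A \ (s : Set Λ)) y) := by
    rw [e0_sub hB A s, add_apply]; abel
  rw [h2, norm_neg]
  exact e0_norm_le hB _ _ (fun w hw => hw.2) y

theorem e0_bound (A : Set Λ) : ‖E0 hB A‖ ≤ ‖adjoint (anOp hB)‖ * ‖anOp hB‖ := by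
  refine ContinuousLinearMap.opNorm_le_bound _ (by positivity) fun y => ?_
  refine (e0_norm_le hB A A subset_rfl y).trans ?_
  rw [mul_assoc]
  gcongr
  refine (norm_mo_le (abs_i1_le A) _).trans ?_
  rw [one_mul]
  exact (anOp hB).le_opNorm y

theorem aesm_e0 {X : Type*} [MeasurableSpace X] {μ : Measure X} [Countable Λ] {S : X → Set Λ}
    (hS : ∀ w, MeasurableSet {x | w ∈ S x}) (y : Ell2 (Γ × ι)) :
    AEStronglyMeasurable (fun x => E0 hB (S x) y) μ := by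
  classical
  refine aestronglyMeasurable_of_tendsto_ae (atTop : Filter (Finset Λ))
    (f := fun s x => E0 hB (S x ∩ (s : Set Λ)) y) (fun s => ?_)
    (Eventually.of_forall fun x => e0_tendsto hB (S x) y)
  have h1 : (fun x => E0 hB (S x ∩ (s : Set Λ)) y) = fun x =>
      ∑ w ∈ s, ({x | w ∈ S x} : Set X).indicator (fun _ => E0 hB {w} y) x := by
    funext x
    rw [e0_finset, sum_apply]
    refine Finset.sum_congr rfl fun w _ => ?_
    by_cases h : w ∈ S x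
    · rw [if_pos h, Set.indicator_of_mem (show x ∈ {x | w ∈ S x} from h)]
    · rw [if_neg h, Set.indicator_of_notMem (show x ∉ {x | w ∈ S x} from h), zero_apply]
  rw [h1]
  refine Finset.aestronglyMeasurable_fun_sum _ fun w _ => ?_
  exact aestronglyMeasurable_const.indicator (hS w)

end meas

section ind

variable {Γ Λ ι 𝔾 : Type} [Group Γ] [Group Λ] [Group 𝔾] [Fintype ι] [Countable Λ] {t : ℝ}
  {R : Λ → (Ell2 (Γ × ι) →L[ℂ] Ell2 (Γ × ι))} {a : Γ × ι → ℝ} (hB : Bes 1 (bf R a))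
  (d : CData 𝔾 Λ) {Y : Type} (ϑ : d.X → Λ → Y)

/-- the family before regularisation -/
noncomputable def EY (A : Set Y) : Lp (Ell2 (Γ × ι)) 2 d.μ →L[ℂ] Lp (Ell2 (Γ × ι)) 2 d.μ :=
  fop d.μ (fun x => E0 hB {w | ϑ x w ∈ A})

variable {ϑ} {A A' : Set Y}

theorem fld_ey (hA : ∀ w, MeasurableSet {x | ϑ x w ∈ A}) :
    Fld (EY hB d ϑ A) (fun x => E0 hB {w | ϑ x w ∈ A}) :=
  fop_spec (aesm_e0 hB (S := fun x => {w | ϑ x w ∈ A}) hA) (fun x => e0_bound hB _)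

theorem ey_nonneg (hA : ∀ w, MeasurableSet {x | ϑ x w ∈ A}) : 0 ≤ EY hB d ϑ A := by
  have h1 := fld_ey hB d hA
  refine H108.nonneg_of_inner ?_ fun ζ => ?_
  · rw [IsSelfAdjoint, star_eq_adjoint]
    refine h1.adjoint h1 (Eventually.of_forall fun x => ?_)
    rw [← star_eq_adjoint, E0_star]
  · have h2 := Fld.inner fld_one h1 ζ ζ
    change ⟪ζ, EY hB d ϑ A ζ⟫_ℂ = _ at h2
    rw [h2]
    have h3 : Integrable (fun x => ⟪ζ x, E0 hB {w | ϑ x w ∈ A} (ζ x)⟫_ℂ) d.μ := by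
      refine (L2.integrable_inner (𝕜 := ℂ) ζ (EY hB d ϑ A ζ)).congr ?_
      filter_upwards [h1 ζ] with x hx
      rw [hx]
    have h4 := integral_re (𝕜 := ℂ) h3
    change 0 ≤ RCLike.re (∫ x, ⟪ζ x, E0 hB {w | ϑ x w ∈ A} (ζ x)⟫_ℂ ∂d.μ)
    rw [← h4]
    exact integral_nonneg fun x => H108.inner_nonneg_of_nonneg (E0_nonneg hB _) _

theorem ey_add (hA : ∀ w, MeasurableSet {x | ϑ x w ∈ A})
    (hA' : ∀ w, MeasurableSet {x | ϑ x w ∈ A'}) (h : Disjoint A A') :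
    EY hB d ϑ (A ∪ A') = EY hB d ϑ A + EY hB d ϑ A' := by
  have hU : ∀ w, MeasurableSet {x | ϑ x w ∈ A ∪ A'} := fun w => (hA w).union (hA' w)
  refine (fld_ey hB d hU).ext ((fld_ey hB d hA).add (fld_ey hB d hA'))
    (Eventually.of_forall fun x => ?_)
  rw [← E0_add hB]
  · rfl
  · rw [Set.disjoint_left]
    intro w h1 h2
    exact (Set.disjoint_left.mp h) h1 h2

theorem ey_one (hR : ARep t R) (hu : ∀ v, ‖R v‖ ≤ 1) :
    EY hB d ϑ Set.univ * Ri d R 1 = EY hB d ϑ Set.univ := by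
  have hU : ∀ w, MeasurableSet {x | ϑ x w ∈ (Set.univ : Set Y)} := fun w => by
    simp only [Set.mem_univ, Set.setOf_true]
    exact MeasurableSet.univ
  rw [ri_one d hu]
  refine ((fld_ey hB d hU).mul (fld_comp _)).ext (fld_ey hB d hU)
    (Eventually.of_forall fun x => ?_)
  exact E0_mul_one hB hR _

theorem ey_ker (hR : ARep t R) (hu : ∀ v, ‖R v‖ ≤ 1) (ha : ∀ x, 0 < a x)
    (ξ : Lp (Ell2 (Γ × ι)) 2 d.μ) (h : EY hB d ϑ Set.univ ξ = 0) : Ri d R 1 ξ = 0 := by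
  have hU : ∀ w, MeasurableSet {x | ϑ x w ∈ (Set.univ : Set Y)} := fun w => by
    simp only [Set.mem_univ, Set.setOf_true]
    exact MeasurableSet.univ
  rw [ri_one d hu]
  refine Lp.ext ?_
  have h0 : ⇑(EY hB d ϑ Set.univ ξ) =ᵐ[d.μ] 0 := by
    rw [h]; exact Lp.coeFn_zero _ _ _
  filter_upwards [fld_ey hB d hU ξ, h0, fld_comp (μ := d.μ) (R 1) ξ,
    Lp.coeFn_zero (Ell2 (Γ × ι)) 2 d.μ] with x h1 h2 h3 h4
  rw [h3, h4]
  refine E0_ker hB hR ha ?_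
  rw [h2] at h1
  have h5 : ({w : Λ | ϑ x w ∈ (Set.univ : Set Y)}) = Set.univ := by
    ext w; simp
  rw [h5] at h1
  exact h1.symm

theorem ey_cov [MulAction 𝔾 Y] (hR : ARep t R) (hu : ∀ v, ‖R v‖ ≤ 1)
    (hϑ : ∀ g x w, ϑ (d.act g x) w = g • ϑ x (w * d.c g x))
    (hA : ∀ w, MeasurableSet {x | ϑ x w ∈ A}) (g : 𝔾)
    (hgA : ∀ w, MeasurableSet {x | ϑ x w ∈ {y | g⁻¹ • y ∈ A}}) :
    Ri d R g * EY hB d ϑ A * Ri d R g⁻¹ = EY hB d ϑ {y | g⁻¹ • y ∈ A} := by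
  refine ContinuousLinearMap.ext fun ξ => Lp.ext ?_
  filter_upwards [ri_ae d hu g (EY hB d ϑ A (Ri d R g⁻¹ ξ)),
    ae_comp (d.mp g⁻¹) (fld_ey hB d hA (Ri d R g⁻¹ ξ)),
    ae_comp (d.mp g⁻¹) (ri_ae d hu g⁻¹ ξ), fld_ey hB d hgA ξ] with x h1 h2 h3 h4
  change (Ri d R g (EY hB d ϑ A (Ri d R g⁻¹ ξ))) x = _
  rw [h1, h2, h3, h4, inv_inv, act_inv]
  have e1 : d.c g⁻¹ x = (d.c g (d.act g⁻¹ x))⁻¹ := by
    have := c_inv d g (d.act g⁻¹ x)
    rwa [act_inv] at this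
  rw [e1]
  obtain ⟨v, hv⟩ : ∃ v, v = d.c g (d.act g⁻¹ x) := ⟨_, rfl⟩
  rw [← hv]
  have e2 := congrArg (fun T : Ell2 (Γ × ι) →L[ℂ] Ell2 (Γ × ι) => T (ξ x))
    (E0_cov hB hR v {w | ϑ (d.act g⁻¹ x) w ∈ A})
  have e3 : {w : Λ | w * v ∈ {w | ϑ (d.act g⁻¹ x) w ∈ A}} =
      {w | ϑ x w ∈ {y | g⁻¹ • y ∈ A}} := by
    ext w
    simp only [Set.mem_setOf_eq]
    have e4 := hϑ g (d.act g⁻¹ x) w
    rw [act_inv, ← hv] at e4
    rw [e4, inv_smul_smul]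
  rw [e3] at e2
  exact e2

theorem ey_sc {S : Set d.X} (hS : MeasurableSet S) (hA : ∀ w, MeasurableSet {x | ϑ x w ∈ A}) :
    EY hB d ϑ A * ind d.μ (Ell2 (Γ × ι)) S = ind d.μ (Ell2 (Γ × ι)) S * EY hB d ϑ A :=
  (fld_ey hB d hA).ind hS

end ind

/-- **[EX]** The induced representation has an additive covariant family of positive operators,
commuting with `L^∞(X)`, indexed by the sets of an algebra `Ms` of subsets of a `𝔾`-set `Y` to which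
there is an equivariant family of maps `ϑ x : Λ → Y`. -/
theorem exists_efx {Γ Λ ι 𝔾 Y : Type} [Group Γ] [Group Λ] [Group 𝔾] [Fintype ι] [Countable Γ]
    [Countable Λ] [MulAction 𝔾 Y] {t : ℝ} {R : Λ → (Ell2 (Γ × ι) →L[ℂ] Ell2 (Γ × ι))}
    (hR : ARep t R) (hu : ∀ v, ‖R v‖ ≤ 1) (d : CData 𝔾 Λ) (ϑ : d.X → Λ → Y)
    (hϑ : ∀ g x w, ϑ (d.act g x) w = g • ϑ x (w * d.c g x))
    {Ms : Set (Set Y)} (hMs : ∀ A ∈ Ms, ∀ w, MeasurableSet {x | ϑ x w ∈ A})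
    (hMu : Set.univ ∈ Ms) (hMc : ∀ A ∈ Ms, Aᶜ ∈ Ms)
    (hMg : ∀ A ∈ Ms, ∀ v : 𝔾, {x | v⁻¹ • x ∈ A} ∈ Ms)
    (hMa : ∀ A ∈ Ms, ∀ A' ∈ Ms, A ∪ A' ∈ Ms) :
    ∃ E : Set Y → (Lp (Ell2 (Γ × ι)) 2 d.μ →L[ℂ] Lp (Ell2 (Γ × ι)) 2 d.μ), (∀ A ∈ Ms, 0 ≤ E A) ∧
      (∀ A ∈ Ms, ∀ A' ∈ Ms, Disjoint A A' → E (A ∪ A') = E A + E A') ∧
      E Set.univ = Ri d R 1 ∧
      (∀ v, ∀ A ∈ Ms, Ri d R v * E A * Ri d R v⁻¹ = E {x | v⁻¹ • x ∈ A}) ∧
      (∀ A ∈ Ms, ∀ S, MeasurableSet S →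
        E A * ind d.μ (Ell2 (Γ × ι)) S = ind d.μ (Ell2 (Γ × ι)) S * E A) := by
  have ht := hR.pos
  obtain ⟨_⟩ := nonempty_encodable (Γ × ι)
  obtain ⟨a, ha, c0, hc0, hc1⟩ := posSumOfEncodable (ε := t⁻¹) (by positivity) (Γ × ι)
  have hB : Bes 1 (bf R a) := by
    refine bes_bf hR (fun x => (ha x).le) fun s => ?_
    have h1 : ∑ x ∈ s, a x ≤ t⁻¹ := (sum_le_hasSum s (fun x _ => (ha x).le) hc0).trans hc1
    calc (∑ x ∈ s, a x) * t ≤ t⁻¹ * t := by gcongr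
      _ = 1 := inv_mul_cancel₀ ht.ne'
  obtain ⟨E, h1, h2, h3, h4, h5⟩ := exists_regfam (R := Ri d R) (Ms := Ms) (E0 := EY hB d ϑ)
    (sc := {T | ∃ S : Set d.X, MeasurableSet S ∧ T = ind d.μ (Ell2 (Γ × ι)) S})
    (ri_mul d hu hR.mul) (adjoint_ri d hu hR.adj) hMu hMc hMg hMa
    (fun A hA => ey_nonneg hB d (hMs A hA))
    (fun A hA A' hA' h => ey_add hB d (hMs A hA) (hMs A' hA') h)
    (fun v A hA => ey_cov hB d hR hu hϑ (hMs A hA) v (hMs _ (hMg A hA v)))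
    (ey_one hB d hR hu) (fun w hw => ey_ker hB d hR hu ha w hw)
    (by rintro T ⟨S, hS, rfl⟩; exact adjoint_ind hS)
    (by rintro A hA T ⟨S, hS, rfl⟩; exact ey_sc hB d hS (hMs A hA))
  exact ⟨E, h1, h2, h3, h4, fun A hA S hS => h5 A hA _ ⟨S, hS, rfl⟩⟩

end Vale.Agent.P092.H132
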