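import Vale.Agent.P092.H132.Base
import Vale.Agent.P092.H967.Total

/-!
P092 (helper132), stage (M): representations normalising the right algebra of an abstract row
model, and the maps `F ↦ lim_k R(z_k)* F_k R(z_k)`.
-/

set_option linter.all false

open scoped InnerProductSpace
open Filter Topology ContinuousLinearMap

namespace Vale.Agent.P092.H132

open Vale.Agent.P092.H160 Vale.Agent.P092.H553
open Vale.Agent.P092.H538 (ind ind_nonneg ind_le_one abs_ind_le ind_pos ind_neg Usm CutOff Amen)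

/-- Representations by partial isometries with support `R 1`, normalising the right algebra. -/
structure TRep {Γ ι H D : Type} [Group Γ] [Group D] [Fintype ι] [NormedAddCommGroup H]
    [InnerProductSpace ℂ H] [CompleteSpace H] (B : Base Γ ι H) (t : ℝ) (R : D → (H →L[ℂ] H)) :
    Prop where
  nr : ∀ v, NR B (R v)
  mul : ∀ v w, R (v * w) = R v * R w
  adj : ∀ v, adjoint (R v) = R v⁻¹
  one : B.RA (R 1)
  pos : 0 < t
  tr_one : ∑ i, ⟪B.ep i, R 1 (B.ep i)⟫_ℂ = t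

namespace Base

variable {Γ ι H D : Type} [Group Γ] [Group D] [Fintype ι] [NormedAddCommGroup H]
    [InnerProductSpace ℂ H] [CompleteSpace H] (B : Base Γ ι H)

/-- `lim_k R(z_k)* F_k R(z_k)`. -/
noncomputable def PiA (U : Ultrafilter ℕ) (R : D → (H →L[ℂ] H)) (z : ℕ → D) (F : ℕ → Γ → ℝ) :
    H →L[ℂ] H :=
  wl U (fun k => adjoint (R (z k)) * B.mp (F k) * R (z k))

/-- The functions `D_k` are asymptotically zero on the vectors `R(z_k) ξ`. -/
def SmallA (U : Ultrafilter ℕ) (R : D → (H →L[ℂ] H)) (z : ℕ → D) (F : ℕ → Γ → ℝ) : Prop :=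
  ∀ ξ : H, Tendsto (fun k => ‖B.mp (F k) (R (z k) ξ)‖) U (𝓝 0)

/-- The sequence `z` leaves finite sets: the vectors `R(z_k) ε_i` are asymptotically zero at every
element of `Γ`. -/
def EscA (U : Ultrafilter ℕ) (R : D → (H →L[ℂ] H)) (z : ℕ → D) : Prop :=
  ∀ (i : ι) (g : Γ), Tendsto (fun k => ‖B.mp (ind fun h => h = g) (R (z k) (B.ep i))‖) U (𝓝 0)

/-- the quadratic form of `PiA` -/
noncomputable def tA (U : Ultrafilter ℕ) (R : D → (H →L[ℂ] H)) (z : ℕ → D) (F : ℕ → Γ → ℝ)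
    (ξ : H) : ℝ := (⟪ξ, B.PiA U R z F ξ⟫_ℂ).re

end Base

variable {Γ ι H D : Type} [Group Γ] [Group D] [Fintype ι] [NormedAddCommGroup H]
    [InnerProductSpace ℂ H] [CompleteSpace H] {B : Base Γ ι H} {t : ℝ} {R : D → (H →L[ℂ] H)}
    {U : Ultrafilter ℕ} {z : ℕ → D} {F F' : ℕ → Γ → ℝ} {C C' : ℝ}

namespace TRep

theorem adj_one (h : TRep B t R) : adjoint (R 1) = R 1 := by rw [h.adj, inv_one]

theorem one_mul_one (h : TRep B t R) : R 1 * R 1 = R 1 := by rw [← h.mul, mul_one]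

theorem one_mul (h : TRep B t R) (v : D) : R 1 * R v = R v := by rw [← h.mul, _root_.one_mul]

theorem mul_one (h : TRep B t R) (v : D) : R v * R 1 = R v := by rw [← h.mul, _root_.mul_one]

theorem inv_mul (h : TRep B t R) (v : D) : R v⁻¹ * R v = R 1 := by
  rw [← h.mul, inv_mul_cancel]

theorem mul_inv (h : TRep B t R) (v : D) : R v * R v⁻¹ = R 1 := by
  rw [← h.mul, mul_inv_cancel]

theorem app (h : TRep B t R) (v w : D) (ξ : H) : R v (R w ξ) = R (v * w) ξ := by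
  rw [h.mul]; rfl

theorem lx (h : TRep B t R) (v : D) (s : Γ) (ξ : H) : R v (B.lx s ξ) = B.lx s (R v ξ) :=
  (h.nr v).lx' s ξ

theorem sc (h : TRep B t R) (v : D) {a : H →L[ℂ] H} (ha : a ∈ B.sc) :
    ∃ a' ∈ B.sc, R v * a = a' * R v := (h.nr v).sc ha

theorem inner_left (h : TRep B t R) (v : D) (ξ η : H) : ⟪R v ξ, η⟫_ℂ = ⟪ξ, R v⁻¹ η⟫_ℂ := by
  rw [← h.adj, adjoint_inner_right]

theorem inner_right (h : TRep B t R) (v : D) (ξ η : H) : ⟪ξ, R v η⟫_ℂ = ⟪R v⁻¹ ξ, η⟫_ℂ := by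
  rw [← h.adj, adjoint_inner_left]

theorem inner_map (h : TRep B t R) (v : D) (ξ η : H) :
    ⟪R v ξ, R v η⟫_ℂ = ⟪R 1 ξ, R 1 η⟫_ℂ := by
  rw [h.inner_left, h.app, inv_mul_cancel, h.inner_left, inv_one, h.app, _root_.mul_one]

theorem norm_map (h : TRep B t R) (v : D) (ξ : H) : ‖R v ξ‖ = ‖R 1 ξ‖ := by
  have h1 := h.inner_map v ξ ξ
  rw [inner_self_eq_norm_sq_to_K, inner_self_eq_norm_sq_to_K] at h1
  have h2 : ‖R v ξ‖ ^ 2 = ‖R 1 ξ‖ ^ 2 := by exact_mod_cast h1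
  exact (pow_left_inj₀ (norm_nonneg _) (norm_nonneg _) two_ne_zero).mp h2

theorem one_re (h : TRep B t R) (ξ : H) : (⟪ξ, R 1 ξ⟫_ℂ).re = ‖R 1 ξ‖ ^ 2 := by
  have h1 : ⟪R 1 ξ, R 1 ξ⟫_ℂ = ⟪ξ, R 1 ξ⟫_ℂ := by
    rw [h.inner_left, h.app, inv_one, _root_.one_mul]
  rw [← h1, inner_self_eq_norm_sq_to_K]
  norm_cast

theorem norm_one_le (h : TRep B t R) (ξ : H) : ‖R 1 ξ‖ ≤ ‖ξ‖ := by
  have h1 : ‖R 1 ξ‖ ^ 2 ≤ ‖R 1 ξ‖ * ‖ξ‖ := by
    rw [← h.one_re, mul_comm]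
    exact (Complex.re_le_norm _).trans (norm_inner_le_norm _ _)
  rcases (norm_nonneg (R 1 ξ)).eq_or_lt with h0 | h0
  · rw [← h0]; exact norm_nonneg _
  · nlinarith

theorem norm_le (h : TRep B t R) (v : D) (ξ : H) : ‖R v ξ‖ ≤ ‖ξ‖ :=
  (h.norm_map v ξ).le.trans (h.norm_one_le ξ)

theorem opNorm_le (h : TRep B t R) (v : D) : ‖R v‖ ≤ 1 :=
  ContinuousLinearMap.opNorm_le_bound _ zero_le_one fun ξ => by
    rw [_root_.one_mul]; exact h.norm_le v ξ

theorem nn_mul_le (h : TRep B t R) (v : D) {S : H →L[ℂ] H} (hS : B.RA S) :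
    B.nn (S * R v) ≤ B.nn S := by
  refine ((h.nr v).nn_mul_le hS).trans ?_
  have h1 : ‖R v‖ ^ 2 ≤ 1 := pow_le_one₀ (norm_nonneg _) (h.opNorm_le v)
  have := B.nn_nonneg S
  nlinarith

theorem conj_ra (h : TRep B t R) (v : D) {S : H →L[ℂ] H} (hS : B.RA S) :
    B.RA (R v * S * R v⁻¹) := by
  rw [← h.adj]; exact (h.nr v).conj hS

theorem trA_conj (h : TRep B t R) (v : D) {S : H →L[ℂ] H} (hS : B.RA S) :
    B.trA (R v * S * R v⁻¹) = B.trA (R 1 * S) := by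
  rw [← h.adj, (h.nr v).trA_conj hS, h.adj, h.inv_mul]

end TRep

section pia

variable (hR : TRep B t R)

include hR

theorem pa_bdd (hF : ∀ k g, |F k g| ≤ C) (k : ℕ) :
    ‖adjoint (R (z k)) * B.mp (F k) * R (z k)‖ ≤ C := by
  have hC : 0 ≤ C := (abs_nonneg _).trans (hF 0 1)
  refine ContinuousLinearMap.opNorm_le_bound _ hC fun ξ => ?_
  rw [mul_ap, mul_ap, hR.adj]
  refine (hR.norm_le _ _).trans ((B.norm_mp_le (hF k) _).trans ?_)
  have := hR.norm_le (z k) ξ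
  gcongr

theorem pa_spec (hF : ∀ k g, |F k g| ≤ C) (ξ η : H) :
    Tendsto (fun k => ⟪R (z k) ξ, B.mp (F k) (R (z k) η)⟫_ℂ) U (𝓝 ⟪ξ, B.PiA U R z F η⟫_ℂ) := by
  refine (wl_spec U (pa_bdd hR hF) ξ η).congr fun k => ?_
  rw [mul_ap, mul_ap, adjoint_inner_right]

theorem pa_norm_le (hF : ∀ k g, |F k g| ≤ C) (ξ η : H) :
    ‖⟪ξ, B.PiA U R z F η⟫_ℂ‖ ≤ C * ‖ξ‖ * ‖η‖ := by
  refine le_of_tendsto (pa_spec hR hF ξ η).norm (Eventually.of_forall fun k => ?_)
  refine (norm_inner_le_norm _ _).trans ?_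
  have hC : 0 ≤ C := (abs_nonneg _).trans (hF 0 1)
  have h1 := B.norm_mp_le (hF k) (R (z k) η)
  have h2 := hR.norm_le (z k) η
  have h3 := hR.norm_le (z k) ξ
  calc ‖R (z k) ξ‖ * ‖B.mp (F k) (R (z k) η)‖ ≤ ‖ξ‖ * (C * ‖η‖) := by
        refine mul_le_mul h3 (h1.trans ?_) (norm_nonneg _) (norm_nonneg _)
        gcongr
    _ = C * ‖ξ‖ * ‖η‖ := by ring

theorem pa_sym (hF : ∀ k g, |F k g| ≤ C) (ξ η : H) :
    ⟪B.PiA U R z F ξ, η⟫_ℂ = ⟪ξ, B.PiA U R z F η⟫_ℂ := by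
  refine tendsto_nhds_unique ?_ (pa_spec hR hF ξ η)
  have h1 := (Complex.continuous_conj.tendsto _).comp (pa_spec (z := z) (U := U) hR hF η ξ)
  rw [inner_conj_symm] at h1
  refine h1.congr fun k => ?_
  rw [Function.comp_apply, inner_conj_symm, B.inner_mp_left (hF k)]

theorem pa_adjoint (hF : ∀ k g, |F k g| ≤ C) : adjoint (B.PiA U R z F) = B.PiA U R z F := by
  rw [eq_comm, ContinuousLinearMap.eq_adjoint_iff]
  exact pa_sym hR hF

theorem pa_nonneg (hF : ∀ k g, |F k g| ≤ C) (h0 : ∀ k g, 0 ≤ F k g) : 0 ≤ B.PiA U R z F := by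
  refine H108.nonneg_of_inner ?_ fun ζ => ?_
  · rw [IsSelfAdjoint, star_eq_adjoint]
    exact pa_adjoint hR hF
  · refine ge_of_tendsto ((Complex.continuous_re.tendsto _).comp (pa_spec hR hF ζ ζ))
      (Eventually.of_forall fun k => ?_)
    exact B.mp_re_nonneg (hF k) (h0 k) _

theorem pa_congr (hF : ∀ k g, |F k g| ≤ C) (hF' : ∀ k g, |F' k g| ≤ C')
    (h : B.SmallA U R z (fun k g => F k g - F' k g)) : B.PiA U R z F = B.PiA U R z F' := by
  refine op_ext_inner fun ξ η => ?_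
  refine tendsto_nhds_unique (pa_spec hR hF ξ η) ?_
  have h1 : Tendsto (fun k => ⟪R (z k) ξ, B.mp (fun g => F k g - F' k g) (R (z k) η)⟫_ℂ) U
      (𝓝 0) := by
    rw [tendsto_zero_iff_norm_tendsto_zero]
    have h2 := (h η).const_mul ‖ξ‖
    rw [mul_zero] at h2
    refine squeeze_zero (fun k => norm_nonneg _) (fun k => ?_) h2
    refine (norm_inner_le_norm _ _).trans ?_
    have := hR.norm_le (z k) ξ
    gcongr
  have h3 := h1.add (pa_spec (z := z) (U := U) hR hF' ξ η)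
  rw [zero_add] at h3
  refine h3.congr fun k => ?_
  rw [B.mp_sub_apply (hF k) (hF' k), ← inner_add_right, sub_add_cancel]

theorem pa_add (hF : ∀ k g, |F k g| ≤ C) (hF' : ∀ k g, |F' k g| ≤ C') :
    B.PiA U R z (fun k g => F k g + F' k g) = B.PiA U R z F + B.PiA U R z F' := by
  refine op_ext_inner fun ξ η => ?_
  have h : ∀ k g, |F k g + F' k g| ≤ C + C' := fun k g =>
    (abs_add_le _ _).trans (add_le_add (hF k g) (hF' k g))
  refine tendsto_nhds_unique (pa_spec hR h ξ η) ?_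
  rw [add_apply, inner_add_right]
  refine ((pa_spec hR hF ξ η).add (pa_spec hR hF' ξ η)).congr fun k => ?_
  rw [B.mp_add_apply (hF k) (hF' k), inner_add_right]

theorem pa_smul (c : ℝ) (hF : ∀ k g, |F k g| ≤ C) :
    B.PiA U R z (fun k g => c * F k g) = (c : ℂ) • B.PiA U R z F := by
  refine op_ext_inner fun ξ η => ?_
  have h : ∀ k g, |c * F k g| ≤ |c| * C := fun k g => by
    rw [abs_mul]
    have := hF k g
    gcongr
  refine tendsto_nhds_unique (pa_spec hR h ξ η) ?_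
  rw [smul_apply, inner_smul_right]
  refine ((pa_spec hR hF ξ η).const_mul (c : ℂ)).congr fun k => ?_
  rw [B.mp_smul_apply c (hF k), inner_smul_right]

theorem pa_mono (hF : ∀ k g, |F k g| ≤ C) (hF' : ∀ k g, |F' k g| ≤ C')
    (h : ∀ k g, F k g ≤ F' k g) (ξ : H) :
    (⟪ξ, B.PiA U R z F ξ⟫_ℂ).re ≤ (⟪ξ, B.PiA U R z F' ξ⟫_ℂ).re := by
  refine le_of_tendsto_of_tendsto ((Complex.continuous_re.tendsto _).comp (pa_spec hR hF ξ ξ))
    ((Complex.continuous_re.tendsto _).comp (pa_spec hR hF' ξ ξ)) (Eventually.of_forall fun k => ?_)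
  exact B.mp_re_mono (hF k) (hF' k) (h k) _

theorem pa_one : B.PiA U R z (fun _ _ => (1 : ℝ)) = R 1 := by
  refine op_ext_inner fun ξ η => ?_
  refine tendsto_nhds_unique (pa_spec hR (C := 1) (fun k g => by simp) ξ η) ?_
  have h1 : ∀ k, ⟪R (z k) ξ, B.mp (fun _ => (1 : ℝ)) (R (z k) η)⟫_ℂ = ⟪ξ, R 1 η⟫_ℂ := by
    intro k
    rw [B.mp_one_apply, hR.inner_left, hR.app, inv_mul_cancel]
  simp only [h1]
  exact tendsto_const_nhds

/-- `Π = Π P`. -/
theorem pa_mul_one (hF : ∀ k g, |F k g| ≤ C) : B.PiA U R z F * R 1 = B.PiA U R z F := by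
  refine op_ext_inner fun ξ η => ?_
  rw [mul_ap]
  refine tendsto_nhds_unique (pa_spec hR hF ξ (R 1 η)) ((pa_spec hR hF ξ η).congr fun k => ?_)
  rw [hR.app, mul_one]

/-- `Π = P Π`. -/
theorem pa_one_mul (hF : ∀ k g, |F k g| ≤ C) : R 1 * B.PiA U R z F = B.PiA U R z F := by
  refine op_ext_inner fun ξ η => ?_
  rw [mul_ap, hR.inner_right, inv_one]
  refine tendsto_nhds_unique (pa_spec hR hF (R 1 ξ) η) ((pa_spec hR hF ξ η).congr fun k => ?_)
  rw [hR.app, mul_one]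

/-- Exact left covariance. -/
theorem pa_lx' (hF : ∀ k g, |F k g| ≤ C) (s : Γ) (ξ : H) :
    B.lx s (B.PiA U R z F ξ) = B.PiA U R z (fun k g => F k (s⁻¹ * g)) (B.lx s ξ) := by
  refine ext_inner_left ℂ fun η => ?_
  refine tendsto_nhds_unique ?_
    (pa_spec hR (F := fun k g => F k (s⁻¹ * g)) (fun k g => hF k _) η (B.lx s ξ))
  rw [B.inner_lx_right]
  refine (pa_spec hR hF (B.lx s⁻¹ η) ξ).congr fun k => ?_
  rw [hR.lx, hR.lx, ← B.lx_mp_apply (hF k), B.inner_lx_right]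

/-- Left covariance. -/
theorem pa_lx (hF : ∀ k g, |F k g| ≤ C) (hF' : ∀ k g, |F' k g| ≤ C') (s : Γ)
    (h : B.SmallA U R z (fun k g => F k (s⁻¹ * g) - F' k g)) (ξ : H) :
    B.lx s (B.PiA U R z F ξ) = B.PiA U R z F' (B.lx s ξ) := by
  rw [← pa_congr hR (F := fun k g => F k (s⁻¹ * g)) (fun k g => hF k _) hF' h, pa_lx' hR hF]

/-- `Π` commutes with the scalars. -/
theorem pa_sc (hF : ∀ k g, |F k g| ≤ C) {a : H →L[ℂ] H} (ha : a ∈ B.sc) :
    B.PiA U R z F * a = a * B.PiA U R z F := by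
  refine op_ext_inner fun ξ η => ?_
  have e1 : ⟪ξ, (a * B.PiA U R z F) η⟫_ℂ = ⟪a ξ, B.PiA U R z F η⟫_ℂ := by
    rw [mul_ap, ← B.sc_adj a ha, adjoint_inner_right, B.sc_adj a ha]
  rw [e1, mul_ap]
  refine tendsto_nhds_unique (pa_spec hR hF ξ (a η)) ((pa_spec hR hF (a ξ) η).congr fun k => ?_)
  obtain ⟨a', ha', e2⟩ := hR.sc (z k) ha
  have e3 : ∀ ζ, R (z k) (a ζ) = a' (R (z k) ζ) := fun ζ =>
    congrArg (fun X : H →L[ℂ] H => X ζ) e2
  have e4 : B.mp (F k) (a' (R (z k) η)) = a' (B.mp (F k) (R (z k) η)) :=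
    (congrArg (fun X : H →L[ℂ] H => X (R (z k) η)) (B.sc_mp a' ha' (hF k))).symm
  rw [e3, e3, e4]
  conv_rhs => rw [← B.sc_adj a' ha', adjoint_inner_right]

/-- `Π` lies in the right algebra. -/
theorem pa_ra (hF : ∀ k g, |F k g| ≤ C)
    (h : ∀ s : Γ, B.SmallA U R z (fun k g => F k (s * g) - F k g)) : B.RA (B.PiA U R z F) := by
  refine ⟨fun s => ?_, fun a ha => pa_sc hR hF ha⟩
  ext1 ξ
  rw [mul_ap, mul_ap]
  exact (pa_lx hR hF hF s (h s⁻¹) ξ).symm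

omit hR in
theorem two_norm_lx {T : H →L[ℂ] H} (hT : B.RA T) (s : Γ) {a : H →L[ℂ] H} (ha : a ∈ B.sc) (i : ι) :
    ‖T (B.lx s (a (B.ep i)))‖ ≤ Real.sqrt (B.nn T) := by
  rw [hT.lx', B.norm_lx, hT.sc' ha]
  refine ((a.le_opNorm _).trans ?_).trans (B.norm_le_nn T i)
  exact mul_le_of_le_one_left (norm_nonneg _) (B.sc_le a ha)

omit hR in
/-- the same for products of an element of the right algebra and one of the normaliser -/
theorem two_norm_nr {S T : H →L[ℂ] H} (hS : B.RA S) (hT : NR B T) (hT1 : ‖T‖ ≤ 1) (s : Γ)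
    {a : H →L[ℂ] H} (ha : a ∈ B.sc) (i : ι) :
    ‖S (T (B.lx s (a (B.ep i))))‖ ≤ Real.sqrt (B.nn S) := by
  obtain ⟨a', ha', e⟩ := hT.sc ha
  have e1 : T (a (B.ep i)) = a' (T (B.ep i)) := congrArg (fun X : H →L[ℂ] H => X (B.ep i)) e
  rw [hT.lx', hS.lx', B.norm_lx, e1, hS.sc' ha']
  refine ((a'.le_opNorm _).trans (mul_le_of_le_one_left (norm_nonneg _) (B.sc_le a' ha'))).trans ?_
  rw [← mul_ap]
  refine (B.norm_le_nn (S * T) i).trans (Real.sqrt_le_sqrt ?_)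
  refine (hT.nn_mul_le hS).trans ?_
  have h1 : ‖T‖ ^ 2 ≤ 1 := pow_le_one₀ (norm_nonneg _) hT1
  have := B.nn_nonneg S
  nlinarith

/-- Elements of the normaliser commute weakly with asymptotically right invariant functions,
along vectors `R(z_k) ξ`. -/
theorem weak_comm {T : H →L[ℂ] H} (hT : NR B T) (hF : ∀ k g, |F k g| ≤ C) (z z' : ℕ → D)
    (h : ∀ t : Γ, B.SmallA U R z (fun k g => F k (g * t) - F k g)) (ξ η : H) :
    Tendsto (fun k => ⟪R (z' k) ξ, B.mp (F k) (T (R (z k) η)) - T (B.mp (F k) (R (z k) η))⟫_ℂ) U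
      (𝓝 0) := by
  obtain ⟨X, K, hX, hK, hTe⟩ := hT
  have hC : 0 ≤ C := (abs_nonneg _).trans (hF 0 1)
  have hmp : ∀ k, ‖B.mp (F k)‖ ≤ C := fun k => B.opNorm_mp_le (hF k)
  have hb : ∀ k, ‖adjoint (R (z' k)) * (B.mp (F k) * T - T * B.mp (F k)) * R (z k)‖ ≤
      C * ‖T‖ + ‖T‖ * C := by
    intro k
    have h1 : ‖B.mp (F k) * T - T * B.mp (F k)‖ ≤ C * ‖T‖ + ‖T‖ * C := by
      refine (norm_sub_le _ _).trans (add_le_add ?_ ?_)
      · refine (norm_mul_le _ _).trans ?_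
        have := hmp k
        gcongr
      · refine (norm_mul_le _ _).trans ?_
        have := hmp k
        gcongr
    have h0 : 0 ≤ C * ‖T‖ + ‖T‖ * C := by positivity
    refine (norm_mul_le _ _).trans ?_
    refine (mul_le_mul ((norm_mul_le _ _).trans (mul_le_mul (a := ‖adjoint (R (z' k))‖) (b := 1)
      ?_ h1 (norm_nonneg _) zero_le_one)) (hR.opNorm_le (z k)) (norm_nonneg _) (by positivity)).trans
      (by rw [_root_.one_mul, _root_.mul_one])
    rw [hR.adj]; exact hR.opNorm_le _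
  have hgoal := B.tendsto_inner_of_total (U := U)
    (f := fun k => adjoint (R (z' k)) * (B.mp (F k) * T - T * B.mp (F k)) * R (z k)) hb
  refine (hgoal ?_ ξ η).congr fun k => ?_
  swap
  · rw [mul_ap, mul_ap, adjoint_inner_right, sub_apply, mul_ap, mul_ap]
  intro s a ha i s' a' ha' i'
  rw [Metric.tendsto_nhds]
  intro ε hε
  obtain ⟨M, hM⟩ : ∃ M, M = ‖B.lx s (a (B.ep i))‖ + ‖B.lx s' (a' (B.ep i'))‖ + 1 := ⟨_, rfl⟩
  have hM0 : 0 < M := by rw [hM]; positivity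
  obtain ⟨δ, hδ0, hδ⟩ : ∃ δ : ℝ, 0 < δ ∧ 2 * M * C * δ < ε / 2 := by
    refine ⟨ε / (4 * M * (C + 1)), by positivity, ?_⟩
    rw [mul_div_assoc', div_lt_iff₀ (by positivity)]
    nlinarith [mul_pos hM0 hε]
  obtain ⟨n, Y, u, hY1, hY2, hY3⟩ := B.appr hX (ε := δ ^ 2) (by positivity)
  obtain ⟨b, hb'⟩ : ∃ b, b = ∑ j, Y j := ⟨_, rfl⟩
  rw [← hb'] at hY3
  have hbR : B.RA b := by rw [hb']; exact Base.RA.sum _ fun j _ => hY1 j
  have hXb : B.RA (X - b) := Base.RA.sub hX hbR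
  have hnn : Real.sqrt (B.nn (X - b)) ≤ δ := by
    rw [Real.sqrt_le_left hδ0.le]; exact hY3
  have hKR : ∀ k, NR B (K * R (z k)) := fun k => NR.mul ⟨1, K, Base.RA.one, hK, (_root_.one_mul K).symm⟩ (hR.nr _)
  have hKn : ∀ k, ‖K * R (z k)‖ ≤ 1 := fun k =>
    (norm_mul_le _ _).trans (mul_le_one₀ hK.opNorm_le (norm_nonneg _) (hR.opNorm_le _))
  -- the two small terms
  have hsm1 : ∀ k, ‖(X - b) (K (R (z k) (B.lx s' (a' (B.ep i')))))‖ ≤ δ := by
    intro k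
    have := two_norm_nr hXb (hKR k) (hKn k) s' ha' i'
    rw [mul_ap] at this
    exact this.trans hnn
  have hsm2 : ∀ k, ‖adjoint (X - b) (R (z' k) (B.lx s (a (B.ep i))))‖ ≤ δ := by
    intro k
    refine (two_norm_nr hXb.adj (hR.nr (z' k)) (hR.opNorm_le _) s ha i).trans ?_
    rw [Base.nn_adjoint hXb]
    exact hnn
  -- the commutators with the shifts
  have hCm : Tendsto (fun k => M * ∑ j : Fin n, ‖Y j‖ *
      ‖B.mp (fun g => F k (g * u j) - F k g) (R (z k) (B.lx s' (a' (B.ep i'))))‖) U (𝓝 0) := by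
    have := (tendsto_finsetSum (Finset.univ : Finset (Fin n)) fun j _ =>
      ((h (u j)) (B.lx s' (a' (B.ep i')))).const_mul ‖Y j‖).const_mul M
    simpa using this
  filter_upwards [(Metric.tendsto_nhds.mp hCm) (ε / 2) (by positivity)] with k hk
  rw [dist_zero_right] at hk ⊢
  rw [Real.norm_of_nonneg (mul_nonneg hM0.le (Finset.sum_nonneg fun j _ => by positivity))] at hk
  rw [mul_ap, mul_ap, adjoint_inner_right, sub_apply, mul_ap, mul_ap]
  have e1 := hsm1 k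
  have e2 := hsm2 k
  obtain ⟨η', hη'⟩ : ∃ η', η' = R (z k) (B.lx s' (a' (B.ep i'))) := ⟨_, rfl⟩
  obtain ⟨ξ', hξ'⟩ : ∃ ξ', ξ' = R (z' k) (B.lx s (a (B.ep i))) := ⟨_, rfl⟩
  rw [← hη'] at e1 hk ⊢
  rw [← hξ'] at e2 ⊢
  have hη1 : ‖η'‖ ≤ M := by
    rw [hη', hM]
    refine (hR.norm_le _ _).trans ?_
    linarith [norm_nonneg (B.lx s (a (B.ep i)))]
  have hξ1 : ‖ξ'‖ ≤ M := by
    rw [hξ', hM]
    refine (hR.norm_le _ _).trans ?_
    linarith [norm_nonneg (B.lx s' (a' (B.ep i')))]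
  have hKmp : ∀ (G : Γ → ℝ) {E : ℝ}, (∀ g, |G g| ≤ E) → ∀ ζ, K (B.mp G ζ) = B.mp G (K ζ) :=
    fun G E hG ζ => congrArg (fun X : H →L[ℂ] H => X ζ) (hK.mp hG)
  have hkey : ⟪ξ', B.mp (F k) (T η') - T (B.mp (F k) η')⟫_ℂ =
      ⟪ξ', B.mp (F k) ((X - b) (K η'))⟫_ℂ - ⟪adjoint (X - b) ξ', B.mp (F k) (K η')⟫_ℂ +
      ⟪ξ', B.mp (F k) (b (K η')) - b (B.mp (F k) (K η'))⟫_ℂ := by
    rw [adjoint_inner_left, sub_apply, sub_apply, map_sub, hTe, mul_ap, mul_ap, hKmp _ (hF k)]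
    simp only [inner_sub_right]
    ring
  have b1 : ‖⟪ξ', B.mp (F k) ((X - b) (K η'))⟫_ℂ‖ ≤ M * (C * δ) := by
    refine (norm_inner_le_norm _ _).trans ?_
    have h2 := B.norm_mp_le (hF k) ((X - b) (K η'))
    refine mul_le_mul hξ1 (h2.trans ?_) (norm_nonneg _) hM0.le
    gcongr
  have b2 : ‖⟪adjoint (X - b) ξ', B.mp (F k) (K η')⟫_ℂ‖ ≤ M * (C * δ) := by
    refine (norm_inner_le_norm _ _).trans ?_
    have h2 := B.norm_mp_le (hF k) (K η')
    rw [hK.norm_map] at h2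
    calc _ ≤ δ * (C * M) := by
          refine mul_le_mul e2 (h2.trans ?_) (norm_nonneg _) hδ0.le
          gcongr
      _ = M * (C * δ) := by ring
  have b3 : ‖⟪ξ', B.mp (F k) (b (K η')) - b (B.mp (F k) (K η'))⟫_ℂ‖ ≤
      M * ∑ j : Fin n, ‖Y j‖ * ‖B.mp (fun g => F k (g * u j) - F k g) η'‖ := by
    have e3 : B.mp (F k) (b (K η')) - b (B.mp (F k) (K η')) = ∑ j : Fin n,
        Y j (K (B.mp (fun g => F k (g * u j) - F k g) η')) := by
      rw [hb']
      simp only [ContinuousLinearMap.sum_apply, map_sum]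
      rw [← Finset.sum_sub_distrib]
      refine Finset.sum_congr rfl fun j _ => ?_
      have e4 : B.mp (F k) (Y j (K η')) = Y j (B.mp (fun g => F k (g * u j)) (K η')) :=
        congrArg (fun X : H →L[ℂ] H => X (K η')) (hY2 j (hF k))
      rw [e4, ← map_sub, ← B.mp_sub_apply (F := fun g => F k (g * u j)) (C := C)
        (fun g => hF k _) (hF k), hKmp _ (E := C + C) (fun g => (abs_sub _ _).trans
        (add_le_add (hF k _) (hF k _)))]
    rw [e3]
    refine (norm_inner_le_norm _ _).trans ?_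
    refine (mul_le_mul hξ1 (norm_sum_le _ _) (norm_nonneg _) hM0.le).trans ?_
    refine mul_le_mul_of_nonneg_left (Finset.sum_le_sum fun j _ => ?_) hM0.le
    refine ((Y j).le_opNorm _).trans ?_
    rw [hK.norm_map]
  rw [hkey]
  calc _ ≤ ‖⟪ξ', B.mp (F k) ((X - b) (K η'))⟫_ℂ - ⟪adjoint (X - b) ξ', B.mp (F k) (K η')⟫_ℂ‖ +
        ‖⟪ξ', B.mp (F k) (b (K η')) - b (B.mp (F k) (K η'))⟫_ℂ‖ := norm_add_le _ _
    _ ≤ (M * (C * δ) + M * (C * δ)) + M * ∑ j : Fin n, ‖Y j‖ *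
        ‖B.mp (fun g => F k (g * u j) - F k g) η'‖ :=
        add_le_add ((norm_sub_le _ _).trans (add_le_add b1 b2)) b3
    _ < ε := by linarith

/-- Conjugation: `R_v Π_z(F) R_v* = Π_{v z v⁻¹}(F)`. -/
theorem pa_conj (hF : ∀ k g, |F k g| ≤ C) (v : D)
    (h : ∀ t : Γ, B.SmallA U R z (fun k g => F k (g * t) - F k g)) :
    R v * B.PiA U R z F * R v⁻¹ = B.PiA U R (fun k => v * z k * v⁻¹) F := by
  refine op_ext_inner fun ξ η => ?_
  rw [mul_ap, mul_ap, hR.inner_right]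
  refine tendsto_nhds_unique (pa_spec hR hF (R v⁻¹ ξ) (R v⁻¹ η)) ?_
  have h1 := pa_spec (U := U) (z := fun k => v * z k * v⁻¹) hR hF ξ η
  have h2 := weak_comm (U := U) hR (hR.nr v) hF z (fun k => v * z k) h (R v⁻¹ ξ) (R v⁻¹ η)
  have h3 := h1.sub h2
  rw [sub_zero] at h3
  refine h3.congr fun k => ?_
  have e1 : R (v * z k * v⁻¹) ξ = R (v * z k) (R v⁻¹ ξ) := by rw [hR.app]
  have e2 : R (v * z k * v⁻¹) η = R v (R (z k) (R v⁻¹ η)) := by rw [hR.app, hR.app, mul_assoc]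
  rw [e1, e2, inner_sub_right, sub_sub_cancel, ← hR.app v (z k), hR.inner_map]
  have e3 : R 1 (R (z k) (R v⁻¹ ξ)) = R (z k) (R v⁻¹ ξ) := by rw [hR.app, one_mul]
  rw [e3, hR.inner_right, inv_one, e3]

/-- Commutation with `R_v` for `v` commuting with all `z_k`. -/
theorem pa_comm (hF : ∀ k g, |F k g| ≤ C) (v : D) (hv : ∀ k, z k * v = v * z k)
    (h : ∀ t : Γ, B.SmallA U R z (fun k g => F k (g * t) - F k g)) :
    B.PiA U R z F * R v = R v * B.PiA U R z F := by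
  have h1 := pa_conj (U := U) hR hF v h
  have h2 : (fun k => v * z k * v⁻¹) = z := by
    funext k
    rw [← hv k, mul_inv_cancel_right]
  rw [h2] at h1
  have h3 := congrArg (fun T => T * R v) h1
  simp only [mul_assoc] at h3
  rw [hR.inv_mul, pa_mul_one hR hF] at h3
  exact h3.symm

/-! ### The quadratic form -/

theorem small_of_usmA {D' : ℕ → Γ → ℝ} (hD : Usm U D') : B.SmallA U R z D' := by
  intro ξ
  rw [Metric.tendsto_nhds]
  intro ε hε
  have h1 := hD (ε / (2 * (‖ξ‖ + 1))) (by positivity)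
  filter_upwards [h1] with k hk
  rw [dist_zero_right, norm_norm]
  refine (B.norm_mp_le hk _).trans_lt ?_
  have h2 := hR.norm_le (z k) ξ
  have h3 : ε / (2 * (‖ξ‖ + 1)) * ‖R (z k) ξ‖ ≤ ε / (2 * (‖ξ‖ + 1)) * ‖ξ‖ := by gcongr
  refine h3.trans_lt ?_
  rw [div_mul_eq_mul_div, div_lt_iff₀ (by positivity)]
  nlinarith [norm_nonneg ξ]

theorem tA_spec (hF : ∀ k g, |F k g| ≤ C) (ξ : H) :
    Tendsto (fun k => (⟪R (z k) ξ, B.mp (F k) (R (z k) ξ)⟫_ℂ).re) U (𝓝 (B.tA U R z F ξ)) :=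
  (Complex.continuous_re.tendsto _).comp (pa_spec hR hF ξ ξ)

theorem tA_mono (hF : ∀ k g, |F k g| ≤ C) (hF' : ∀ k g, |F' k g| ≤ C')
    (h : ∀ δ : ℝ, 0 < δ → ∀ᶠ k in U, ∀ g, F k g ≤ F' k g + δ) (ξ : H) :
    B.tA U R z F ξ ≤ B.tA U R z F' ξ := by
  have key : ∀ δ : ℝ, 0 < δ → B.tA U R z F ξ ≤ B.tA U R z F' ξ + δ * ‖ξ‖ ^ 2 := by
    intro δ hδ
    refine le_of_tendsto_of_tendsto (tA_spec hR hF ξ)
      ((tA_spec (z := z) (U := U) hR hF' ξ).add_const (δ * ‖ξ‖ ^ 2)) ?_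
    filter_upwards [h δ hδ] with k hk
    have hd : ∀ g : Γ, |δ * 1| ≤ δ := fun g => by rw [mul_one, abs_of_pos hδ]
    have h2 := B.mp_re_mono (G := fun g => F' k g + δ * 1) (D := C' + δ) (hF k)
      (fun g => (abs_add_le _ _).trans (add_le_add (hF' k g) (hd g)))
      (fun g => by rw [mul_one]; exact hk g) (R (z k) ξ)
    refine h2.trans ?_
    rw [B.mp_add_apply (hF' k) hd, B.mp_smul_apply δ (F := fun _ => 1) (C := 1)
      (fun g => by simp), B.mp_one_apply, inner_add_right, Complex.add_re, inner_smul_right,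
      inner_self_eq_norm_sq_to_K]
    have h3 : (((δ : ℂ)) * ((‖R (z k) ξ‖ : ℂ)) ^ 2).re = δ * ‖R (z k) ξ‖ ^ 2 := by
      rw [← Complex.ofReal_pow, ← Complex.ofReal_mul, Complex.ofReal_re]
    have h4 := hR.norm_le (z k) ξ
    have h5 : δ * ‖R (z k) ξ‖ ^ 2 ≤ δ * ‖ξ‖ ^ 2 := by gcongr
    exact add_le_add le_rfl (h3.le.trans h5)
  refine le_of_forall_pos_le_add fun ε hε => ?_
  have h2 := key (ε / (‖ξ‖ ^ 2 + 1)) (by positivity)
  refine h2.trans ?_
  gcongr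
  rw [div_mul_eq_mul_div, div_le_iff₀ (by positivity)]
  nlinarith [sq_nonneg ‖ξ‖]

theorem tA_const (c : ℝ) (ξ : H) : B.tA U R z (fun _ _ => c) ξ = c * ‖R 1 ξ‖ ^ 2 := by
  have h1 : B.PiA U R z (fun _ _ => c) = (c : ℂ) • R 1 := by
    rw [← pa_one (U := U) (z := z) hR, ← pa_smul hR c (F := fun _ _ => 1) (C := 1)
      (fun k g => by simp)]
    congr 1
    funext k g
    rw [mul_one]
  rw [Base.tA, h1, smul_apply, inner_smul_right]
  have h2 := hR.one_re ξ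
  rw [← h2, Complex.mul_re, Complex.ofReal_re, Complex.ofReal_im, zero_mul, sub_zero]

theorem tA_le (hF : ∀ k g, |F k g| ≤ C) {c : ℝ} (hc : 0 ≤ c)
    (h : ∀ δ : ℝ, 0 < δ → ∀ᶠ k in U, ∀ g, F k g ≤ c + δ) (ξ : H) :
    B.tA U R z F ξ ≤ c * ‖ξ‖ ^ 2 := by
  have h1 := tA_mono (z := z) hR hF (F' := fun _ _ => c) (C' := |c|) (fun k g => le_rfl) h ξ
  rw [tA_const hR] at h1
  refine h1.trans ?_
  have := hR.norm_one_le ξ
  gcongr

theorem tA_nonneg (hF : ∀ k g, |F k g| ≤ C) (h0 : ∀ k g, 0 ≤ F k g) (ξ : H) :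
    0 ≤ B.tA U R z F ξ := H108.inner_nonneg_of_nonneg (pa_nonneg hR hF h0) ξ

theorem pa_sum {κ : Type*} (s : Finset κ) (a : κ → ℝ) {G : κ → ℕ → Γ → ℝ} {E : κ → ℝ}
    (hG : ∀ j k g, |G j k g| ≤ E j) :
    B.PiA U R z (fun k g => ∑ j ∈ s, a j * G j k g) = ∑ j ∈ s, (a j : ℂ) • B.PiA U R z (G j) := by
  classical
  induction s using Finset.induction_on with
  | empty =>
    simp only [Finset.sum_empty]
    have h1 := pa_smul (U := U) (z := z) hR (0 : ℝ) (F := fun _ _ => 1) (C := 1)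
      (fun k g => by simp)
    have h2 : (fun (k : ℕ) (g : Γ) => (0 : ℝ) * 1) = fun _ _ => 0 := by
      funext k g; ring
    rw [h2] at h1
    rw [h1]; simp
  | insert j s hj ih =>
    rw [Finset.sum_insert hj, ← ih, ← pa_smul hR (a j) (hG j)]
    have h1 : ∀ k g, |a j * G j k g| ≤ |a j| * E j := fun k g => by
      rw [abs_mul]
      have := hG j k g
      gcongr
    have h2 : ∀ k g, |∑ i ∈ s, a i * G i k g| ≤ ∑ i ∈ s, |a i| * E i := fun k g => by
      refine (Finset.abs_sum_le_sum_abs _ _).trans (Finset.sum_le_sum fun i _ => ?_)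
      rw [abs_mul]
      have := hG i k g
      gcongr
    rw [← pa_add hR h1 h2]
    congr 1
    funext k g
    rw [Finset.sum_insert hj]

theorem tA_sum {κ : Type*} (s : Finset κ) (a : κ → ℝ) {G : κ → ℕ → Γ → ℝ} {E : κ → ℝ}
    (hG : ∀ j k g, |G j k g| ≤ E j) (ξ : H) :
    B.tA U R z (fun k g => ∑ j ∈ s, a j * G j k g) ξ = ∑ j ∈ s, a j * B.tA U R z (G j) ξ := by
  rw [Base.tA, pa_sum hR s a hG, sum_apply, inner_sum, Complex.re_sum]
  refine Finset.sum_congr rfl fun j _ => ?_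
  rw [smul_apply, inner_smul_right, Complex.mul_re, Complex.ofReal_re, Complex.ofReal_im,
    zero_mul, sub_zero]
  rfl

theorem tA_lx (hF : ∀ k g, |F k g| ≤ C) (b : Γ) (ξ : H) :
    B.tA U R z F (B.lx b⁻¹ ξ) = B.tA U R z (fun k g => F k (b⁻¹ * g)) ξ := by
  have h1 := pa_lx' (U := U) (z := z) hR hF b (B.lx b⁻¹ ξ)
  rw [B.lx_apply_inv] at h1
  rw [Base.tA, Base.tA, ← h1, B.inner_lx_right]

/-- Functions vanishing at infinity are small along an escaping sequence. -/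
theorem smallA_of_tendsto (hE : B.EscA U R z) {q : Γ → ℝ}
    (hq : ∀ g, |q g| ≤ C) (hq0 : Tendsto q cofinite (𝓝 0)) : B.SmallA U R z (fun _ => q) := by
  classical
  have hC : 0 ≤ C := (abs_nonneg _).trans (hq 1)
  -- finite sets
  have hpt : ∀ (g : Γ) (ξ : H), Tendsto (fun k => B.mp (ind fun h => h = g) (R (z k) ξ)) U (𝓝 0) := by
    intro g
    refine B.tendsto_of_total (f := fun k => B.mp (ind fun h => h = g) * R (z k)) (M := 1)
      (fun k => ?_) fun s a ha i => ?_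
    · refine (norm_mul_le _ _).trans (mul_le_one₀ (B.opNorm_mp_le (abs_ind_le _)) (norm_nonneg _)
        (hR.opNorm_le _))
    · rw [tendsto_zero_iff_norm_tendsto_zero]
      refine squeeze_zero (fun k => norm_nonneg _) (fun k => ?_) (hE i (s⁻¹ * g))
      obtain ⟨a', ha', e⟩ := hR.sc (z k) ha
      have e1 : R (z k) (a (B.ep i)) = a' (R (z k) (B.ep i)) :=
        congrArg (fun X : H →L[ℂ] H => X (B.ep i)) e
      have e2 : (fun h : Γ => ind (fun h => h = s⁻¹ * g) (s⁻¹ * h)) = ind fun h => h = g := by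
        funext h
        by_cases hh : h = g
        · rw [ind_pos (P := fun h => h = g) hh, ind_pos (P := fun h => h = s⁻¹ * g) (by rw [hh])]
        · rw [ind_neg (P := fun h => h = g) hh, ind_neg (P := fun h => h = s⁻¹ * g)
            (fun h1 => hh (mul_left_cancel h1))]
      have e3 : B.mp (ind fun h => h = g) (B.lx s (a' (R (z k) (B.ep i)))) =
          B.lx s (B.mp (ind fun h => h = s⁻¹ * g) (a' (R (z k) (B.ep i)))) := by
        rw [B.lx_mp_apply (abs_ind_le _), e2]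
      have e4 : B.mp (ind fun h => h = s⁻¹ * g) (a' (R (z k) (B.ep i))) =
          a' (B.mp (ind fun h => h = s⁻¹ * g) (R (z k) (B.ep i))) :=
        (congrArg (fun X : H →L[ℂ] H => X (R (z k) (B.ep i)))
          (B.sc_mp a' ha' (abs_ind_le fun h => h = s⁻¹ * g))).symm
      rw [mul_ap, hR.lx, e1, e3, e4, B.norm_lx]
      exact (a'.le_opNorm _).trans (mul_le_of_le_one_left (norm_nonneg _) (B.sc_le a' ha'))
  intro ξ
  rw [Metric.tendsto_nhds]
  intro ε hε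
  obtain ⟨δ, hδ0, hδ⟩ : ∃ δ : ℝ, 0 < δ ∧ δ * ‖ξ‖ < ε / 2 := by
    refine ⟨ε / (2 * (‖ξ‖ + 1)), by positivity, ?_⟩
    rw [div_mul_eq_mul_div, div_lt_div_iff₀ (by positivity) (by norm_num)]
    nlinarith [norm_nonneg ξ]
  have hfin := (Metric.tendsto_nhds.mp hq0) δ hδ0
  rw [Filter.eventually_cofinite] at hfin
  obtain ⟨s, hs⟩ : ∃ s, s = hfin.toFinset := ⟨_, rfl⟩
  have hs1 : ∀ g, g ∉ s → |q g| ≤ δ := by
    intro g hg
    by_contra hn
    push Not at hn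
    refine hg ?_
    rw [hs, Set.Finite.mem_toFinset]
    change ¬ (dist (q g) 0 < δ)
    rw [Real.dist_eq, sub_zero]
    exact not_lt.mpr hn.le
  have hlim : Tendsto (fun k => ∑ g ∈ s, C * ‖B.mp (ind fun h => h = g) (R (z k) ξ)‖) U (𝓝 0) := by
    have : Tendsto (fun k => ∑ g ∈ s, C * ‖B.mp (ind fun h => h = g) (R (z k) ξ)‖) U
        (𝓝 (∑ g ∈ s, C * ‖(0 : H)‖)) :=
      tendsto_finsetSum s fun g _ => ((hpt g ξ).norm).const_mul _
    simpa using this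
  filter_upwards [(Metric.tendsto_nhds.mp hlim) (ε / 2) (by positivity)] with k hk
  rw [dist_zero_right] at hk ⊢
  rw [Real.norm_of_nonneg (Finset.sum_nonneg fun g _ => by positivity)] at hk
  rw [norm_norm]
  obtain ⟨q1, hq1⟩ : ∃ q1 : Γ → ℝ, q1 = fun g => if g ∈ s then 0 else q g := ⟨_, rfl⟩
  obtain ⟨q2, hq2⟩ : ∃ q2 : Γ → ℝ, q2 = fun g => ∑ h ∈ s, q h * ind (fun x => x = h) g := ⟨_, rfl⟩
  have hq1b : ∀ g, |q1 g| ≤ δ := by
    intro g
    rw [hq1]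
    by_cases hg : g ∈ s
    · simp only [hg, if_true, abs_zero]; exact hδ0.le
    · simp only [hg, if_false]; exact hs1 g hg
  have hib : ∀ h : Γ, ∀ g, |q h * ind (fun x => x = h) g| ≤ C := fun h g => by
    rw [abs_mul]
    calc _ ≤ C * 1 := mul_le_mul (hq h) (abs_ind_le _ _) (abs_nonneg _) hC
      _ = C := mul_one _
  have hq2b : ∀ g, |q2 g| ≤ ∑ h ∈ s, C := fun g => by
    rw [hq2]
    exact (Finset.abs_sum_le_sum_abs _ _).trans (Finset.sum_le_sum fun h _ => hib h g)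
  have hdec : q = fun g => q1 g + q2 g := by
    funext g
    rw [hq1, hq2]
    by_cases hg : g ∈ s
    · simp only [hg, if_true, zero_add]
      rw [Finset.sum_eq_single_of_mem g hg fun h _ hne => by
        rw [ind_neg (P := fun x => x = h) (fun h1 => hne h1.symm), mul_zero],
        ind_pos (P := fun x => x = g) rfl, mul_one]
    · simp only [hg, if_false]
      rw [Finset.sum_eq_zero fun h hh => by
        rw [ind_neg (P := fun x => x = h) (fun h1 => hg (by rw [h1]; exact hh)), mul_zero],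
        add_zero]
  rw [hdec, B.mp_add_apply hq1b hq2b]
  have h1 : ‖B.mp q1 (R (z k) ξ)‖ ≤ δ * ‖ξ‖ := by
    refine (B.norm_mp_le hq1b _).trans ?_
    have := hR.norm_le (z k) ξ
    gcongr
  have h2 : ‖B.mp q2 (R (z k) ξ)‖ ≤ ∑ g ∈ s, C * ‖B.mp (ind fun h => h = g) (R (z k) ξ)‖ := by
    rw [hq2, B.mp_sum s (F := fun h g => q h * ind (fun x => x = h) g) (C := fun _ => C) hib,
      sum_apply]
    refine (norm_sum_le _ _).trans (Finset.sum_le_sum fun h _ => ?_)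
    rw [B.mp_smul_apply (q h) (F := ind fun x => x = h) (C := 1) (abs_ind_le _), norm_smul,
      Complex.norm_real, Real.norm_eq_abs]
    have := hq h
    gcongr
  calc _ ≤ ‖B.mp q1 (R (z k) ξ)‖ + ‖B.mp q2 (R (z k) ξ)‖ := norm_add_le _ _
    _ ≤ δ * ‖ξ‖ + ∑ g ∈ s, C * ‖B.mp (ind fun h => h = g) (R (z k) ξ)‖ := add_le_add h1 h2
    _ < ε := by linarith

end pia

/-- For a discrete group with coefficients vanishing at infinity every escaping sequence will do. -/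
theorem Base.escA_of_cofinite (hesc : ∀ (i : ι) (g : Γ), Tendsto (fun v : D =>
    ‖B.mp (ind fun h => h = g) (R v (B.ep i))‖) cofinite (𝓝 0))
    (hU : ∀ v : D, ∀ᶠ k in U, z k ≠ v) : B.EscA U R z := fun i g =>
  (hesc i g).comp (H967.tendsto_cofinite_of_escape hU)

/-- Additive covariant families of positive operators commuting with the scalars. -/
structure EFamT (B : Base Γ ι H) (R : D → (H →L[ℂ] H)) (E : Set D → (H →L[ℂ] H)) : Prop where
  nonneg : ∀ A, 0 ≤ E A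
  add : ∀ A A', Disjoint A A' → E (A ∪ A') = E A + E A'
  univ : E Set.univ = R 1
  cov : ∀ v A, R v * E A * R v⁻¹ = E {w | w * v ∈ A}
  sc : ∀ A, ∀ a ∈ B.sc, E A * a = a * E A

/-- Additive covariant families of positive operators commuting with the scalars, indexed by a
family `Ms` of subsets of a `D`-set `Y`. -/
structure EFamX {Y : Type} [MulAction D Y] (B : Base Γ ι H) (R : D → (H →L[ℂ] H))
    (Ms : Set (Set Y)) (E : Set Y → (H →L[ℂ] H)) : Prop where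
  nonneg : ∀ A ∈ Ms, 0 ≤ E A
  add : ∀ A ∈ Ms, ∀ A' ∈ Ms, Disjoint A A' → E (A ∪ A') = E A + E A'
  univ : E Set.univ = R 1
  cov : ∀ v, ∀ A ∈ Ms, R v * E A * R v⁻¹ = E {x | v⁻¹ • x ∈ A}
  sc : ∀ A ∈ Ms, ∀ a ∈ B.sc, E A * a = a * E A

end Vale.Agent.P092.H132
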