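import Vale.Agent.P092.H132.TRep

/-!
P092 (helper132): the masses `∑ i, re ⟪R_w ε_i, F R_w ε_i⟫` in the abstract row model.
-/

set_option linter.all false

open scoped InnerProductSpace
open Filter Topology ContinuousLinearMap

namespace Vale.Agent.P092.H132

open Vale.Agent.P092.H160 Vale.Agent.P092.H553
open Vale.Agent.P092.H538 (ind ind_nonneg ind_le_one abs_ind_le ind_pos ind_neg Usm CutOff Amen)

variable {Γ ι H D : Type} [Group Γ] [Group D] [Fintype ι] [NormedAddCommGroup H]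
    [InnerProductSpace ℂ H] [CompleteSpace H]

/-- `mass w F = ∑ i, re ⟪R_w ε_i, F R_w ε_i⟫`. -/
noncomputable def massX (B : Base Γ ι H) (R : D → (H →L[ℂ] H)) (w : D) (F : Γ → ℝ) : ℝ :=
  ∑ i, (⟪R w (B.ep i), B.mp F (R w (B.ep i))⟫_ℂ).re

variable {B : Base Γ ι H} {t : ℝ} {R : D → (H →L[ℂ] H)} {U : Ultrafilter ℕ} {z : ℕ → D}

/-- the trace of the support, via the norms of `R w ε_i` -/
theorem TRep.sum_norm_sq (h : TRep B t R) (w : D) : ∑ i, ‖R w (B.ep i)‖ ^ 2 = t := by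
  have h1 := congrArg Complex.re h.tr_one
  rw [Complex.re_sum, Complex.ofReal_re] at h1
  rw [← h1]
  refine Finset.sum_congr rfl fun i _ => ?_
  rw [h.one_re, h.norm_map]

theorem massX_sq (B : Base Γ ι H) (R : D → (H →L[ℂ] H)) (w : D) {F : Γ → ℝ} {C : ℝ}
    (hF : ∀ g, |F g| ≤ C) :
    massX B R w (fun g => F g * F g) = ∑ i, ‖B.mp F (R w (B.ep i))‖ ^ 2 := by
  refine Finset.sum_congr rfl fun i _ => ?_
  rw [B.inner_mp_sq hF]

theorem massX_one (h : TRep B t R) (w : D) : massX B R w (fun _ => 1) = t := by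
  rw [← h.sum_norm_sq w]
  refine Finset.sum_congr rfl fun i _ => ?_
  rw [B.mp_one_apply, inner_self_eq_norm_sq_to_K]
  norm_cast

theorem massX_mono (B : Base Γ ι H) (R : D → (H →L[ℂ] H)) (w : D) (F F' : Γ → ℝ) (C : ℝ)
    (hF : ∀ g, |F g| ≤ C) (hF' : ∀ g, |F' g| ≤ C) (hh : ∀ g, F g ≤ F' g) :
    massX B R w F ≤ massX B R w F' :=
  Finset.sum_le_sum fun i _ => B.mp_re_mono hF hF' hh _

theorem massX_add (B : Base Γ ι H) (R : D → (H →L[ℂ] H)) (w : D) (F F' : Γ → ℝ) (C : ℝ)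
    (hF : ∀ g, |F g| ≤ C) (hF' : ∀ g, |F' g| ≤ C) :
    massX B R w (fun g => F g + F' g) = massX B R w F + massX B R w F' := by
  rw [massX, massX, massX, ← Finset.sum_add_distrib]
  refine Finset.sum_congr rfl fun i _ => ?_
  rw [B.mp_add_apply hF hF', inner_add_right, Complex.add_re]

theorem massX_smul (B : Base Γ ι H) (R : D → (H →L[ℂ] H)) (w : D) (F : Γ → ℝ) (C c : ℝ)
    (hF : ∀ g, |F g| ≤ C) : massX B R w (fun g => c * F g) = c * massX B R w F := by
  rw [massX, massX, Finset.mul_sum]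
  refine Finset.sum_congr rfl fun i _ => ?_
  rw [B.mp_smul_apply c hF, inner_smul_right, Complex.re_ofReal_mul]

theorem massX_nonneg (B : Base Γ ι H) (R : D → (H →L[ℂ] H)) (w : D) {F : Γ → ℝ} {C : ℝ}
    (hF : ∀ g, |F g| ≤ C) (h0 : ∀ g, 0 ≤ F g) : 0 ≤ massX B R w F :=
  Finset.sum_nonneg fun i _ => B.mp_re_nonneg hF h0 _

/-- The masses along `z_k v` converge to the trace of `R v⁻¹ PiA R v`. -/
theorem massX_spec (h : TRep B t R) {χ : ℕ → Γ → ℝ} {C : ℝ} (hχ : ∀ k g, |χ k g| ≤ C) (v : D) :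
    Tendsto (fun k => massX B R (z k * v) (χ k)) U
      (𝓝 (∑ i, B.tA U R z χ (R v (B.ep i)))) := by
  refine tendsto_finsetSum _ fun i _ => ?_
  refine (tA_spec h hχ (R v (B.ep i))).congr fun k => ?_
  rw [h.app]

theorem massX_inv (h : TRep B t R) (U : Ultrafilter ℕ) (z : ℕ → D) (v : D)
    (hv : ∀ k, z k * v = v * z k) (χ : ℕ → Γ → ℝ) (hχ : ∀ k g, 0 ≤ χ k g ∧ χ k g ≤ 1)
    (hu : ∀ u : Γ, Usm U (fun k g => χ k (g * u) - χ k g)) :
    Tendsto (fun k => massX B R (z k * v) (χ k) - massX B R (z k) (χ k)) U (𝓝 0) := by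
  have hb : ∀ k g, |χ k g| ≤ 1 := fun k g => by
    rw [abs_of_nonneg (hχ k g).1]; exact (hχ k g).2
  have h1 := massX_spec (U := U) (z := z) h hb v
  have h2 := massX_spec (U := U) (z := z) h hb 1
  have h3 : (∑ i, B.tA U R z χ (R v (B.ep i))) = ∑ i, B.tA U R z χ (R 1 (B.ep i)) := by
    refine Finset.sum_congr rfl fun i _ => ?_
    have hc := pa_comm (U := U) (z := z) h hb v hv fun u => small_of_usmA h (hu u)
    rw [Base.tA, Base.tA]
    have e1 : B.PiA U R z χ (R v (B.ep i)) = R v (B.PiA U R z χ (B.ep i)) :=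
      congrArg (fun X : H →L[ℂ] H => X (B.ep i)) hc
    have e2 : B.PiA U R z χ (R 1 (B.ep i)) = B.PiA U R z χ (B.ep i) :=
      congrArg (fun X : H →L[ℂ] H => X (B.ep i)) (pa_mul_one h hb)
    have e3 : R 1 (B.PiA U R z χ (B.ep i)) = B.PiA U R z χ (B.ep i) :=
      congrArg (fun X : H →L[ℂ] H => X (B.ep i)) (pa_one_mul h hb)
    rw [e1, e2, h.inner_map, e3]
  have h4 := h1.sub h2
  rw [h3, sub_self] at h4
  refine h4.congr fun k => ?_
  rw [mul_one]

/-- The exchange: masses of inverses. -/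
theorem massX_inv_apply (h : TRep B t R) (w : D) {F : Γ → ℝ} {C : ℝ} (hF : ∀ g, |F g| ≤ C) :
    massX B R w⁻¹ F = massX B R w (fun g => F g⁻¹) := by
  obtain ⟨X, K, hX, hK, e⟩ := h.nr w
  have h1 : ∀ i, R w (B.ep i) = X (B.ep i) := fun i => by
    rw [e, mul_ap, hK.ep]
  have h2 : ∀ i, R w⁻¹ (B.ep i) = adjoint K (adjoint X (B.ep i)) := fun i => by
    rw [← h.adj, e, adj_mul]; rfl
  have h3 := B.exch (S := X) (T := adjoint X) hX hX.adj hF
  rw [adj_adj] at h3
  have h4 := congrArg Complex.re h3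
  rw [Complex.re_sum, Complex.re_sum] at h4
  rw [massX, massX]
  calc _ = ∑ i, (⟪adjoint X (B.ep i), B.mp F (adjoint X (B.ep i))⟫_ℂ).re := by
        refine Finset.sum_congr rfl fun i _ => ?_
        rw [h2]
        have e1 : B.mp F (adjoint K (adjoint X (B.ep i))) =
            adjoint K (B.mp F (adjoint X (B.ep i))) :=
          (congrArg (fun Y : H →L[ℂ] H => Y (adjoint X (B.ep i))) (hK.adj_mp hF)).symm
        rw [e1, adjoint_inner_left]
        have e2 : K (adjoint K (B.mp F (adjoint X (B.ep i)))) = B.mp F (adjoint X (B.ep i)) :=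
          congrArg (fun Y : H →L[ℂ] H => Y (B.mp F (adjoint X (B.ep i)))) hK.right
        rw [e2]
    _ = _ := by
        rw [h4]
        refine Finset.sum_congr rfl fun i _ => ?_
        rw [h1]

/-- A trivial bound. -/
theorem abs_massX_le (h : TRep B t R) (w : D) {F : Γ → ℝ} {C : ℝ} (hF : ∀ g, |F g| ≤ C) :
    |massX B R w F| ≤ C * t := by
  have hC : 0 ≤ C := (abs_nonneg _).trans (hF 1)
  rw [← h.sum_norm_sq w, massX, Finset.mul_sum]
  refine (Finset.abs_sum_le_sum_abs _ _).trans (Finset.sum_le_sum fun i _ => ?_)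
  refine (Complex.abs_re_le_norm _).trans ((norm_inner_le_norm _ _).trans ?_)
  have := B.norm_mp_le hF (R w (B.ep i))
  calc _ ≤ ‖R w (B.ep i)‖ * (C * ‖R w (B.ep i)‖) := by gcongr
    _ = _ := by ring

end Vale.Agent.P092.H132
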