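import Vale.Agent.P092.H132.Jop
import Vale.Agent.P092.H325.Comm
import Vale.Agent.P092.H156.Sm
import Vale.Agent.P092.H790.Ind

/-!
P092 (helper132), team A: the right action of `Λ` on `L²(G; K)`.
-/

set_option linter.all false

open scoped InnerProductSpace ENNReal
open Filter Topology ContinuousLinearMap MeasureTheory

namespace Vale.Agent.P092.H132

open Vale.Agent.P092.H160 Vale.Agent.P092.H790
open Vale.Agent.P092.H325 (tl tr tl_ae tr_ae norm_tl norm_tr coef coef_ae bessel)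

section osum

variable {I : Type*} {E : Type*} [NormedAddCommGroup E] [InnerProductSpace ℂ E] [CompleteSpace E]

/-- A strongly convergent sum of operators with orthogonal ranges. -/
theorem exists_osum (A : I → E →L[ℂ] E) (h0 : ∀ i j, i ≠ j → ∀ x y, ⟪A i x, A j y⟫_ℂ = 0)
    (h1 : ∀ x (s : Finset I), ∑ i ∈ s, ‖A i x‖ ^ 2 ≤ ‖x‖ ^ 2) :
    ∃ W : E →L[ℂ] E, (∀ x, HasSum (fun i => A i x) (W x)) ∧ ∀ x, ‖W x‖ ≤ ‖x‖ := by
  have hof : OrthogonalFamily ℂ (fun i => LinearMap.range (A i : E →ₗ[ℂ] E))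
      fun i => (LinearMap.range (A i : E →ₗ[ℂ] E)).subtypeₗᵢ := by
    intro i j hij v w
    obtain ⟨v, x, rfl⟩ := v
    obtain ⟨w, y, rfl⟩ := w
    exact h0 i j hij x y
  have hs : ∀ x, Summable fun i => A i x := by
    intro x
    have h2 := (hof.summable_iff_norm_sq_summable
      (fun i => ⟨A i x, LinearMap.mem_range_self (A i : E →ₗ[ℂ] E) x⟩)).mpr
      (summable_of_sum_le (c := ‖x‖ ^ 2) (fun i => sq_nonneg _) (fun s => h1 x s))
    exact h2
  have hn : ∀ x, ‖∑' i, A i x‖ ≤ ‖x‖ := by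
    intro x
    have h3 := (hs x).hasSum.norm
    refine le_of_tendsto h3 (Eventually.of_forall fun s => ?_)
    have h4 := hof.norm_sum (fun i => ⟨A i x, LinearMap.mem_range_self (A i : E →ₗ[ℂ] E) x⟩) s
    have h5 : ‖∑ i ∈ s, A i x‖ ^ 2 = ∑ i ∈ s, ‖A i x‖ ^ 2 := h4
    have h6 : ‖∑ i ∈ s, A i x‖ ^ 2 ≤ ‖x‖ ^ 2 := by rw [h5]; exact h1 x s
    exact (pow_le_pow_iff_left₀ (norm_nonneg _) (norm_nonneg _) two_ne_zero).mp h6
  refine ⟨LinearMap.mkContinuous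
    { toFun := fun x => ∑' i, A i x
      map_add' := fun x y => by
        rw [← (hs x).tsum_add (hs y)]
        exact tsum_congr fun i => map_add _ _ _
      map_smul' := fun c x => by
        rw [RingHom.id_apply, ← (hs x).tsum_const_smul c]
        exact tsum_congr fun i => map_smul _ _ _ } 1 (fun x => by rw [one_mul]; exact hn x),
    fun x => (hs x).hasSum, hn⟩

end osum

section diag

variable {G : Type*} [Group G] [TopologicalSpace G] [IsTopologicalGroup G] [MeasurableSpace G]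
  [BorelSpace G] {Γ : Type*} [Group Γ] [Countable Γ] {K : Type*} [NormedAddCommGroup K]
  [InnerProductSpace ℂ K] [CompleteSpace K] {μ : Measure G} {b : HilbertBasis Γ ℂ K}

/-- Two vectors of `L²(G; K)` with the same coefficients are equal. -/
theorem ext_coef {ξ η : Lp K 2 μ} (h : ∀ g, coef μ b g ξ = coef μ b g η) : ξ = η := by
  refine Lp.ext ?_
  have h1 : ∀ᵐ x ∂μ, ∀ g : Γ, (coef μ b g ξ) x = ⟪b g, ξ x⟫_ℂ :=
    ae_all_iff.2 fun g => coef_ae μ b g ξ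
  have h2 : ∀ᵐ x ∂μ, ∀ g : Γ, (coef μ b g η) x = ⟪b g, η x⟫_ℂ :=
    ae_all_iff.2 fun g => coef_ae μ b g η
  filter_upwards [h1, h2] with x h1 h2
  apply b.repr.injective
  ext g
  rw [b.repr_apply_apply, b.repr_apply_apply, ← h1, ← h2, h]

/-- `f ↦ (x ↦ f x • b g)` -/
noncomputable def embg (μ : Measure G) (b : HilbertBasis Γ ℂ K) (g : Γ) :
    Lp ℂ 2 μ →L[ℂ] Lp K 2 μ := (ContinuousLinearMap.toSpanSingleton ℂ (b g)).compLpL 2 μ

theorem embg_ae (g : Γ) (f : Lp ℂ 2 μ) : embg μ b g f =ᵐ[μ] fun x => f x • b g := by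
  refine (ContinuousLinearMap.coeFn_compLpL _ _).trans ?_
  exact Eventually.of_forall fun x => by simp

theorem coef_embg [DecidableEq Γ] (g h : Γ) (f : Lp ℂ 2 μ) :
    coef μ b g (embg μ b h f) = if g = h then f else 0 := by
  refine Lp.ext ?_
  filter_upwards [coef_ae μ b g (embg μ b h f), embg_ae (b := b) h f, Lp.coeFn_zero ℂ 2 μ]
    with x h1 h2 h3
  rw [h1, h2, inner_smul_right, orthonormal_iff_ite.1 b.orthonormal]
  split_ifs with hgh
  · rw [mul_one]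
  · rw [mul_zero, h3]; rfl

theorem norm_embg_le (g : Γ) (f : Lp ℂ 2 μ) : ‖embg μ b g f‖ ≤ ‖f‖ := by
  have h1 : ‖b g‖ = 1 := b.orthonormal.1 g
  refine Lp.norm_le_norm_of_ae_le ?_
  filter_upwards [embg_ae (b := b) g f] with x hx
  rw [hx, norm_smul, h1, mul_one]

theorem inner_embg (g h : Γ) (hgh : g ≠ h) (f f' : Lp ℂ 2 μ) :
    ⟪embg μ b g f, embg μ b h f'⟫_ℂ = 0 := by
  classical
  rw [L2.inner_def]
  have h1 : (fun x => ⟪(embg μ b g f) x, (embg μ b h f') x⟫_ℂ) =ᵐ[μ] fun _ => (0 : ℂ) := by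
    filter_upwards [embg_ae (b := b) g f, embg_ae (b := b) h f'] with x h1 h2
    rw [h1, h2, inner_smul_left, inner_smul_right, orthonormal_iff_ite.1 b.orthonormal, if_neg hgh,
      mul_zero, mul_zero]
  rw [integral_congr_ae h1, integral_zero]

/-- The diagonal operator with given entries. -/
theorem exists_diag (U : Γ → Lp ℂ 2 μ →L[ℂ] Lp ℂ 2 μ) (hU : ∀ g f, ‖U g f‖ ≤ ‖f‖) :
    ∃ W : Lp K 2 μ →L[ℂ] Lp K 2 μ, (∀ g ξ, coef μ b g (W ξ) = U g (coef μ b g ξ)) ∧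
      ∀ ξ, ‖W ξ‖ ≤ ‖ξ‖ := by
  classical
  obtain ⟨W, h1, h2⟩ := exists_osum (fun g => embg μ b g ∘L U g ∘L coef μ b g)
    (fun g h hgh ξ η => inner_embg g h hgh _ _) (fun ξ s => by
      refine (Finset.sum_le_sum fun g _ => ?_).trans (bessel μ b s ξ)
      have h3 : ‖(embg μ b g ∘L U g ∘L coef μ b g) ξ‖ ≤ ‖coef μ b g ξ‖ :=
        (norm_embg_le g _).trans (hU g _)
      exact pow_le_pow_left₀ (norm_nonneg _) h3 2)
  refine ⟨W, fun g ξ => ?_, h2⟩
  have h3 := (h1 ξ).mapL (coef μ b g)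
  refine h3.unique ?_
  have h4 : (fun h => coef μ b g ((embg μ b h ∘L U h ∘L coef μ b h) ξ)) =
      fun h => if h = g then U g (coef μ b g ξ) else 0 := by
    funext h
    change coef μ b g (embg μ b h (U h (coef μ b h ξ))) = _
    rw [coef_embg]
    by_cases hh : g = h
    · subst hh; simp
    · rw [if_neg hh, if_neg (Ne.symm hh)]
  rw [h4]
  exact hasSum_ite_eq g _

end diag

section tl

variable {G : Type*} [Group G] [TopologicalSpace G] [IsTopologicalGroup G] [MeasurableSpace G]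
  [BorelSpace G] {E : Type*} [NormedAddCommGroup E] [NormedSpace ℂ E] {μ : Measure G}
  [μ.IsMulLeftInvariant]

theorem tl_mul (g h : G) (f : Lp E 2 μ) : tl μ (g * h) f = tl μ g (tl μ h f) := by
  refine Lp.ext ?_
  filter_upwards [tl_ae μ (g * h) f, tl_ae μ g (tl μ h f),
    (measurePreserving_mul_left μ g⁻¹).quasiMeasurePreserving.ae (tl_ae μ h f)] with x h1 h2 h3
  rw [h1, h2, h3, mul_inv_rev, mul_assoc]

theorem tl_one (f : Lp E 2 μ) : tl μ 1 f = f := H325.tl_one μ f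

theorem tl_inv_tl (g : G) (f : Lp E 2 μ) : tl μ g⁻¹ (tl μ g f) = f := by
  rw [← tl_mul, inv_mul_cancel, tl_one]

theorem tl_tl_inv (g : G) (f : Lp E 2 μ) : tl μ g (tl μ g⁻¹ f) = f := by
  rw [← tl_mul, mul_inv_cancel, tl_one]

theorem tl_comp {F : Type*} [NormedAddCommGroup F] [NormedSpace ℂ F] (A : E →L[ℂ] F) (g : G)
    (f : Lp E 2 μ) : tl μ g (A.compLpL 2 μ f) = A.compLpL 2 μ (tl μ g f) := by
  refine Lp.ext ?_
  filter_upwards [tl_ae μ g (A.compLpL 2 μ f), coeFn_compLpL A (tl μ g f), tl_ae μ g f,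
    (measurePreserving_mul_left μ g⁻¹).quasiMeasurePreserving.ae (coeFn_compLpL A f)]
    with x h1 h2 h3 h4
  rw [h1, h2, h3, h4]

theorem tr_comp {F : Type*} [NormedAddCommGroup F] [NormedSpace ℂ F] {μ : Measure G}
    [μ.IsMulRightInvariant] (A : E →L[ℂ] F) (g : G)
    (f : Lp E 2 μ) : tr μ g (A.compLpL 2 μ f) = A.compLpL 2 μ (tr μ g f) := by
  refine Lp.ext ?_
  filter_upwards [tr_ae μ g (A.compLpL 2 μ f), coeFn_compLpL A (tr μ g f), tr_ae μ g f,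
    (measurePreserving_mul_right μ g).quasiMeasurePreserving.ae (coeFn_compLpL A f)]
    with x h1 h2 h3 h4
  rw [h1, h2, h3, h4]

theorem tl_tr [μ.IsMulRightInvariant] (g y : G) (f : Lp E 2 μ) :
    tl μ g (tr μ y f) = tr μ y (tl μ g f) := by
  refine Lp.ext ?_
  filter_upwards [tl_ae μ g (tr μ y f), tr_ae μ y (tl μ g f),
    (measurePreserving_mul_left μ g⁻¹).quasiMeasurePreserving.ae (tr_ae μ y f),
    (measurePreserving_mul_right μ y).quasiMeasurePreserving.ae (tl_ae μ g f)] with x h1 h2 h3 h4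
  rw [h1, h2, h3, h4, mul_assoc]

end tl

section fell

variable {Γ G K : Type} [Group Γ] [Countable Γ] [Group G] [TopologicalSpace G]
  [IsTopologicalGroup G] [MeasurableSpace G] [BorelSpace G] [NormedAddCommGroup K]
  [InnerProductSpace ℂ K] [CompleteSpace K] {ρ : Γ →* (K →L[ℂ] K)} {ω : K}
  {μ : Measure G} [μ.IsMulLeftInvariant]

/-- `(rl γ ξ) x = ρ γ (ξ (ι γ⁻¹ x))`: on fields this is the right multiplication by `u_γ*`. -/
noncomputable def rl (ι : Γ →* G) (ρ : Γ →* (K →L[ℂ] K)) (μ : Measure G) [μ.IsMulLeftInvariant]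
    (γ : Γ) : Lp K 2 μ →L[ℂ] Lp K 2 μ := (ρ γ).compLpL 2 μ * tl μ (ι γ)

theorem rl_ae (ι : Γ →* G) (ρ : Γ →* (K →L[ℂ] K)) (γ : Γ) (ξ : Lp K 2 μ) :
    rl ι ρ μ γ ξ =ᵐ[μ] fun x => ρ γ (ξ ((ι γ)⁻¹ * x)) := by
  filter_upwards [coeFn_compLpL (ρ γ) (tl μ (ι γ) ξ), tl_ae μ (ι γ) ξ] with x h1 h2
  change ((ρ γ).compLpL 2 μ (tl μ (ι γ) ξ)) x = _
  rw [h1, h2]

theorem rl_mul (ι : Γ →* G) (ρ : Γ →* (K →L[ℂ] K)) (g h : Γ) :
    rl ι ρ μ (g * h) = rl ι ρ μ g * rl ι ρ μ h := by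
  ext1 ξ
  change (ρ (g * h)).compLpL 2 μ (tl μ (ι (g * h)) ξ) =
    (ρ g).compLpL 2 μ (tl μ (ι g) ((ρ h).compLpL 2 μ (tl μ (ι h) ξ)))
  rw [tl_comp, map_mul, map_mul, comp_mul, tl_mul]
  rfl

theorem rl_one (ι : Γ →* G) (ρ : Γ →* (K →L[ℂ] K)) : rl ι ρ μ 1 = 1 := by
  ext1 ξ
  change (ρ 1).compLpL 2 μ (tl μ (ι 1) ξ) = ξ
  rw [map_one, map_one, comp_one, tl_one]
  rfl

theorem coef_tl (h : RegRep ρ ω) (g : Γ) (y : G) (ξ : Lp K 2 μ) :
    coef μ h.basis g (tl μ y ξ) = tl μ y (coef μ h.basis g ξ) := (tl_comp _ _ _).symm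

theorem coef_rho (h : RegRep ρ ω) (g γ : Γ) (ξ : Lp K 2 μ) :
    coef μ h.basis g ((ρ γ).compLpL 2 μ ξ) = coef μ h.basis (γ⁻¹ * g) ξ := by
  refine Lp.ext ?_
  filter_upwards [coef_ae μ h.basis g ((ρ γ).compLpL 2 μ ξ), coef_ae μ h.basis (γ⁻¹ * g) ξ,
    coeFn_compLpL (ρ γ) ξ] with x h1 h2 h3
  rw [h1, h2, h3, h.basis_apply, h.basis_apply, h.inner_right, ← mul_ap, ← map_mul]

/-- The Fell unitary. -/
theorem exists_fell (h : RegRep ρ ω) (ι : Γ →* G) (μ : Measure G) [μ.IsMulLeftInvariant] :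
    ∃ W W' : Lp K 2 μ →L[ℂ] Lp K 2 μ, W' * W = 1 ∧ W * W' = 1 ∧ adjoint W = W' ∧
      (∀ ξ, ‖W ξ‖ = ‖ξ‖) ∧
      (∀ g ξ, coef μ h.basis g (W ξ) = tl μ (ι g)⁻¹ (coef μ h.basis g ξ)) ∧
      (∀ g ξ, coef μ h.basis g (W' ξ) = tl μ (ι g) (coef μ h.basis g ξ)) := by
  obtain ⟨W, h1, h2⟩ := exists_diag (μ := μ) (b := h.basis) (fun g => tl μ (ι g)⁻¹)
    (fun g f => (norm_tl μ _ f).le)
  obtain ⟨W', h1', h2'⟩ := exists_diag (μ := μ) (b := h.basis) (fun g => tl μ (ι g))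
    (fun g f => (norm_tl μ _ f).le)
  have e1 : W' * W = 1 := by
    ext1 ξ
    refine ext_coef (b := h.basis) fun g => ?_
    change coef μ h.basis g (W' (W ξ)) = _
    rw [h1', h1, tl_tl_inv]
    rfl
  have e2 : W * W' = 1 := by
    ext1 ξ
    refine ext_coef (b := h.basis) fun g => ?_
    change coef μ h.basis g (W (W' ξ)) = _
    rw [h1, h1', tl_inv_tl]
    rfl
  have e1' : ∀ ξ, W' (W ξ) = ξ := fun ξ => congrArg (fun T : Lp K 2 μ →L[ℂ] Lp K 2 μ => T ξ) e1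
  have e2' : ∀ ξ, W (W' ξ) = ξ := fun ξ => congrArg (fun T : Lp K 2 μ →L[ℂ] Lp K 2 μ => T ξ) e2
  have hn : ∀ ξ, ‖W ξ‖ = ‖ξ‖ := fun ξ => le_antisymm (h2 ξ) (by
    have h3 := h2' (W ξ)
    rwa [e1'] at h3)
  have hi : ∀ ξ η, ⟪W ξ, W η⟫_ℂ = ⟪ξ, η⟫_ℂ := fun ξ η =>
    (LinearIsometry.mk (W : Lp K 2 μ →ₗ[ℂ] Lp K 2 μ) hn).inner_map_map ξ η
  refine ⟨W, W', e1, e2, ?_, hn, h1, h1'⟩
  rw [eq_comm, ContinuousLinearMap.eq_adjoint_iff]
  intro ξ η
  rw [← hi, e2']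

end fell

section slice

variable {X : Type*} [MeasurableSpace X] {μ : Measure X} {K : Type*} [NormedAddCommGroup K]
  [InnerProductSpace ℂ K]

/-- `k ↦ 1_s k` -/
noncomputable def isl (s : Set X) (hs : MeasurableSet s) (hμ : μ s ≠ ∞) : K →L[ℂ] Lp K 2 μ :=
  LinearMap.mkContinuous
    { toFun := fun k => indicatorConstLp 2 hs hμ k
      map_add' := fun k l => by
        refine Lp.ext ?_
        filter_upwards [indicatorConstLp_coeFn (p := 2) (hs := hs) (hμs := hμ) (c := k + l),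
          Lp.coeFn_add (indicatorConstLp 2 hs hμ k) (indicatorConstLp 2 hs hμ l),
          indicatorConstLp_coeFn (p := 2) (hs := hs) (hμs := hμ) (c := k),
          indicatorConstLp_coeFn (p := 2) (hs := hs) (hμs := hμ) (c := l)] with x h1 h2 h3 h4
        rw [h1, h2, Pi.add_apply, h3, h4]
        by_cases hx : x ∈ s <;> simp [hx]
      map_smul' := fun c k => by
        rw [RingHom.id_apply]
        refine Lp.ext ?_
        filter_upwards [indicatorConstLp_coeFn (p := 2) (hs := hs) (hμs := hμ) (c := c • k),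
          Lp.coeFn_smul c (indicatorConstLp 2 hs hμ k),
          indicatorConstLp_coeFn (p := 2) (hs := hs) (hμs := hμ) (c := k)] with x h1 h2 h3
        rw [h1, h2, Pi.smul_apply, h3]
        by_cases hx : x ∈ s <;> simp [hx] } (μ.real s ^ (1 / (2 : ℝ≥0∞).toReal))
    (fun k => by
      change ‖indicatorConstLp 2 hs hμ k‖ ≤ _
      rw [mul_comm]
      exact norm_indicatorConstLp_le)

theorem isl_apply (s : Set X) (hs : MeasurableSet s) (hμ : μ s ≠ ∞) (k : K) :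
    isl s hs hμ k = indicatorConstLp 2 hs hμ k := rfl

theorem comp_isl (A : K →L[ℂ] K) (s : Set X) (hs : MeasurableSet s) (hμ : μ s ≠ ∞) (k : K) :
    A.compLpL 2 μ (isl s hs hμ k) = isl s hs hμ (A k) := by
  refine Lp.ext ?_
  filter_upwards [coeFn_compLpL A (isl s hs hμ k),
    indicatorConstLp_coeFn (p := 2) (hs := hs) (hμs := hμ) (c := A k),
    indicatorConstLp_coeFn (p := 2) (hs := hs) (hμs := hμ) (c := k)] with x h1 h2 h3
  rw [h1, isl_apply, isl_apply, h2, h3]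
  by_cases hx : x ∈ s <;> simp [hx]

/-- Two continuous functions which agree on the vectors `1_s k`, additive, are equal. -/
theorem ext_isl {F : Type*} [NormedAddCommGroup F] [NormedSpace ℂ F] {S T : Lp K 2 μ →L[ℂ] F}
    (h : ∀ s (hs : MeasurableSet s) (hμ : μ s ≠ ∞) k, S (isl s hs hμ k) = T (isl s hs hμ k)) :
    S = T := by
  ext1 f
  refine Lp.induction (p := 2) (by norm_num) (motive := fun f => S f = T f) ?_ ?_ ?_ f
  · intro c s hs hμ
    exact h s hs hμ.ne c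
  · intro f g hf hg _ h1 h2
    rw [map_add, map_add, h1, h2]
  · exact isClosed_eq S.continuous T.continuous

variable [CompleteSpace K]

/-- If `X` commutes with `1 ⊗ A`, `A ∈ 𝒮`, and every operator commuting with `𝒮` commutes with
`B`, then `X` commutes with `1 ⊗ B`. -/
theorem comm_of_slices {S : Lp K 2 μ →L[ℂ] Lp K 2 μ} {𝒮 : Set (K →L[ℂ] K)} {B : K →L[ℂ] K}
    (hS : ∀ A ∈ 𝒮, S * A.compLpL 2 μ = A.compLpL 2 μ * S)
    (hB : ∀ Y : K →L[ℂ] K, (∀ A ∈ 𝒮, Y * A = A * Y) → Y * B = B * Y) :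
    S * B.compLpL 2 μ = B.compLpL 2 μ * S := by
  refine ext_isl fun s hs hμ k => ?_
  have key : ∀ s' (hs' : MeasurableSet s') (hμ' : μ s' ≠ ∞) (k' : K),
      ⟪isl s' hs' hμ' k', S (isl s hs hμ (B k))⟫_ℂ =
        ⟪isl s' hs' hμ' (adjoint B k'), S (isl s hs hμ k)⟫_ℂ := by
    intro s' hs' hμ' k'
    obtain ⟨Y, hY⟩ : ∃ Y : K →L[ℂ] K, Y = adjoint (isl s' hs' hμ') ∘L S ∘L isl s hs hμ := ⟨_, rfl⟩
    have hY' : ∀ k k', ⟪k', Y k⟫_ℂ = ⟪isl s' hs' hμ' k', S (isl s hs hμ k)⟫_ℂ := fun k k' => by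
      rw [hY]
      change ⟪k', adjoint (isl s' hs' hμ') (S (isl s hs hμ k))⟫_ℂ = _
      rw [adjoint_inner_right]
    have h1 : Y * B = B * Y := by
      refine hB Y fun A hA => ?_
      ext1 k
      refine ext_inner_left ℂ fun k' => ?_
      change ⟪k', Y (A k)⟫_ℂ = ⟪k', A (Y k)⟫_ℂ
      rw [hY', ← comp_isl A, ← adjoint_inner_left A, hY', ← comp_isl (adjoint A),
        ← comp_adjoint, adjoint_inner_left]
      have h2 := congrArg (fun T : Lp K 2 μ →L[ℂ] Lp K 2 μ => T (isl s hs hμ k)) (hS A hA)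
      exact congrArg _ h2
    have h2 := congrArg (fun T : K →L[ℂ] K => ⟪k', T k⟫_ℂ) h1
    change ⟪k', Y (B k)⟫_ℂ = ⟪k', B (Y k)⟫_ℂ at h2
    rw [hY', ← adjoint_inner_left B, hY'] at h2
    exact h2
  have h3 : innerSL ℂ (S (isl s hs hμ (B k))) = innerSL ℂ (B.compLpL 2 μ (S (isl s hs hμ k))) := by
    refine ext_isl fun s' hs' hμ' k' => ?_
    rw [innerSL_apply_apply, innerSL_apply_apply, ← inner_conj_symm, key s' hs' hμ' k',
      ← comp_isl (adjoint B), ← comp_adjoint, adjoint_inner_left, inner_conj_symm]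
  change S (B.compLpL 2 μ (isl s hs hμ k)) = B.compLpL 2 μ (S (isl s hs hμ k))
  rw [comp_isl]
  refine ext_inner_right ℂ fun v => ?_
  exact congrArg (fun T : Lp K 2 μ →L[ℂ] ℂ => T v) h3

end slice

section ract

variable {Γ Λ G K : Type} [Group Γ] [Countable Γ] [Group Λ] [Group G] [TopologicalSpace G]
  [IsTopologicalGroup G] [MeasurableSpace G] [BorelSpace G] [NormedAddCommGroup K]
  [InnerProductSpace ℂ K] [CompleteSpace K] {ρ : Γ →* (K →L[ℂ] K)} {ω : K}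
  {μ : Measure G} [μ.IsMulLeftInvariant]

/-- the Fell unitary -/
noncomputable def fw (h : RegRep ρ ω) (ι : Γ →* G) (μ : Measure G) [μ.IsMulLeftInvariant] :
    Lp K 2 μ →L[ℂ] Lp K 2 μ := (exists_fell h ι μ).choose

theorem fw_adj_mul (h : RegRep ρ ω) (ι : Γ →* G) : adjoint (fw h ι μ) * fw h ι μ = 1 := by
  obtain ⟨W', h1, h2, h3, h4⟩ := (exists_fell h ι μ).choose_spec
  rw [fw, h3, h1]

theorem fw_mul_adj (h : RegRep ρ ω) (ι : Γ →* G) : fw h ι μ * adjoint (fw h ι μ) = 1 := by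
  obtain ⟨W', h1, h2, h3, h4⟩ := (exists_fell h ι μ).choose_spec
  rw [fw, h3, h2]

theorem norm_fw (h : RegRep ρ ω) (ι : Γ →* G) (ξ : Lp K 2 μ) : ‖fw h ι μ ξ‖ = ‖ξ‖ := by
  obtain ⟨W', h1, h2, h3, h4, h5⟩ := (exists_fell h ι μ).choose_spec
  exact h4 ξ

theorem coef_fw (h : RegRep ρ ω) (ι : Γ →* G) (g : Γ) (ξ : Lp K 2 μ) :
    coef μ h.basis g (fw h ι μ ξ) = tl μ (ι g)⁻¹ (coef μ h.basis g ξ) := by
  obtain ⟨W', h1, h2, h3, h4, h5, h6⟩ := (exists_fell h ι μ).choose_spec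
  exact h5 g ξ

theorem coef_adj_fw (h : RegRep ρ ω) (ι : Γ →* G) (g : Γ) (ξ : Lp K 2 μ) :
    coef μ h.basis g (adjoint (fw h ι μ) ξ) = tl μ (ι g) (coef μ h.basis g ξ) := by
  obtain ⟨W', h1, h2, h3, h4, h5, h6⟩ := (exists_fell h ι μ).choose_spec
  rw [fw, h3]
  exact h6 g ξ

theorem fw_rl (h : RegRep ρ ω) (ι : Γ →* G) (γ : Γ) :
    fw h ι μ * rl ι ρ μ γ = (ρ γ).compLpL 2 μ * fw h ι μ := by
  ext1 ξ
  refine ext_coef (b := h.basis) fun g => ?_
  change coef μ h.basis g (fw h ι μ ((ρ γ).compLpL 2 μ (tl μ (ι γ) ξ))) =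
    coef μ h.basis g ((ρ γ).compLpL 2 μ (fw h ι μ ξ))
  rw [coef_fw, coef_rho, coef_tl, coef_rho, coef_fw, ← tl_mul, map_mul, map_inv, mul_inv_rev,
    inv_inv]

/-- The operator of right multiplication by `A*` on the fields, for `A` in the commutant of `ρ`. -/
noncomputable def rt (h : RegRep ρ ω) (ι : Γ →* G) (μ : Measure G) [μ.IsMulLeftInvariant]
    (A : K →L[ℂ] K) : Lp K 2 μ →L[ℂ] Lp K 2 μ :=
  adjoint (fw h ι μ) * (jop h A).compLpL 2 μ * fw h ι μ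

theorem rt_mul (h : RegRep ρ ω) (ι : Γ →* G) (A B : K →L[ℂ] K) :
    rt h ι μ (A * B) = rt h ι μ A * rt h ι μ B := by
  rw [rt, rt, rt, jop_mul, comp_mul]
  calc adjoint (fw h ι μ) * ((jop h A).compLpL 2 μ * (jop h B).compLpL 2 μ) * fw h ι μ
      = adjoint (fw h ι μ) * (jop h A).compLpL 2 μ * 1 * (jop h B).compLpL 2 μ * fw h ι μ := by
        simp only [mul_assoc, one_mul]
    _ = _ := by rw [← fw_mul_adj h ι]; simp only [mul_assoc]

theorem rt_one (h : RegRep ρ ω) (ι : Γ →* G) : rt h ι μ 1 = 1 := by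
  rw [rt, jop_one, comp_one, mul_one, fw_adj_mul]

theorem adjoint_rt (h : RegRep ρ ω) (ι : Γ →* G) (A : K →L[ℂ] K) :
    adjoint (rt h ι μ A) = rt h ι μ (adjoint A) := by
  rw [rt, rt, ← star_eq_adjoint, star_mul, star_mul, star_eq_adjoint, star_eq_adjoint,
    star_eq_adjoint, adjoint_adjoint, comp_adjoint, adjoint_jop, mul_assoc]

/-- An operator which commutes with all `rl γ` commutes with `rt A`. -/
theorem rt_comm (h : RegRep ρ ω) (ι : Γ →* G) {A : K →L[ℂ] K} (hA : Cmm ρ A)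
    {S : Lp K 2 μ →L[ℂ] Lp K 2 μ} (hS : ∀ γ, S * rl ι ρ μ γ = rl ι ρ μ γ * S) :
    S * rt h ι μ A = rt h ι μ A * S := by
  obtain ⟨T, hT⟩ : ∃ T, T = fw h ι μ * S * adjoint (fw h ι μ) := ⟨_, rfl⟩
  have e1 : T * fw h ι μ = fw h ι μ * S := by
    rw [hT, mul_assoc, mul_assoc, fw_adj_mul, mul_one]
  have e2 : adjoint (fw h ι μ) * T = S * adjoint (fw h ι μ) := by
    rw [hT, ← mul_assoc, ← mul_assoc, fw_adj_mul, one_mul]
  have h1 : ∀ γ, T * (ρ γ).compLpL 2 μ = (ρ γ).compLpL 2 μ * T := by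
    intro γ
    have h2 : T * (ρ γ).compLpL 2 μ * fw h ι μ = (ρ γ).compLpL 2 μ * T * fw h ι μ := by
      rw [mul_assoc, ← fw_rl, ← mul_assoc, e1, mul_assoc, hS, mul_assoc, e1, ← mul_assoc, fw_rl,
        mul_assoc]
    have h3 := congrArg (fun X => X * adjoint (fw h ι μ)) h2
    simp only [mul_assoc, fw_mul_adj, mul_one] at h3
    exact h3
  have h2 : T * (jop h A).compLpL 2 μ = (jop h A).compLpL 2 μ * T := by
    refine comm_of_slices (𝒮 := Set.range ρ) ?_ fun Y hY => ?_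
    · rintro _ ⟨γ, rfl⟩
      exact h1 γ
    · exact (jop_comm h hA fun g => hY _ ⟨g, rfl⟩).symm
  calc S * rt h ι μ A = (S * adjoint (fw h ι μ)) * (jop h A).compLpL 2 μ * fw h ι μ := by
        rw [rt]; simp only [mul_assoc]
    _ = adjoint (fw h ι μ) * (T * (jop h A).compLpL 2 μ) * fw h ι μ := by
        rw [← e2]; simp only [mul_assoc]
    _ = adjoint (fw h ι μ) * (jop h A).compLpL 2 μ * (T * fw h ι μ) := by
        rw [h2]; simp only [mul_assoc]
    _ = _ := by rw [e1, rt]; simp only [mul_assoc]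

/-- If `V` is a regular representation, an operator which commutes with all `rt (V v)` commutes
with all `rl γ`. -/
theorem rl_comm (h : RegRep ρ ω) (ι : Γ →* G) {V : Λ →* (K →L[ℂ] K)} (hV : RegRep V ω)
    (hc : ∀ v, Cmm ρ (V v)) {S : Lp K 2 μ →L[ℂ] Lp K 2 μ}
    (hS : ∀ v, S * rt h ι μ (V v) = rt h ι μ (V v) * S) (γ : Γ) :
    S * rl ι ρ μ γ = rl ι ρ μ γ * S := by
  obtain ⟨T, hT⟩ : ∃ T, T = fw h ι μ * S * adjoint (fw h ι μ) := ⟨_, rfl⟩
  have e1 : T * fw h ι μ = fw h ι μ * S := by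
    rw [hT, mul_assoc, mul_assoc, fw_adj_mul, mul_one]
  have e2 : adjoint (fw h ι μ) * T = S * adjoint (fw h ι μ) := by
    rw [hT, ← mul_assoc, ← mul_assoc, fw_adj_mul, one_mul]
  have h1 : ∀ v, T * (jop h (V v)).compLpL 2 μ = (jop h (V v)).compLpL 2 μ * T := by
    intro v
    have h2 : fw h ι μ * rt h ι μ (V v) = (jop h (V v)).compLpL 2 μ * fw h ι μ := by
      rw [rt, ← mul_assoc, ← mul_assoc, fw_mul_adj, one_mul]
    have h3 : T * (jop h (V v)).compLpL 2 μ * fw h ι μ =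
        (jop h (V v)).compLpL 2 μ * T * fw h ι μ := by
      rw [mul_assoc, ← h2, ← mul_assoc, e1, mul_assoc, hS, mul_assoc, e1, ← mul_assoc, h2,
        mul_assoc]
    have h4 := congrArg (fun X => X * adjoint (fw h ι μ)) h3
    simp only [mul_assoc, fw_mul_adj, mul_one] at h4
    exact h4
  have h2 : T * (ρ γ).compLpL 2 μ = (ρ γ).compLpL 2 μ * T := by
    refine comm_of_slices (𝒮 := Set.range fun v => jop h (V v)) ?_ fun Y hY => ?_
    · rintro _ ⟨v, rfl⟩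
      exact h1 v
    · exact cmm_of_jop h hV hc (fun v => hY _ ⟨v, rfl⟩) γ
  have h3 : fw h ι μ * (S * rl ι ρ μ γ) = fw h ι μ * (rl ι ρ μ γ * S) := by
    rw [← mul_assoc, ← e1, mul_assoc, fw_rl, ← mul_assoc, h2, mul_assoc, e1, ← mul_assoc, ← fw_rl,
      mul_assoc]
  have h4 := congrArg (fun X => adjoint (fw h ι μ) * X) h3
  simp only [← mul_assoc, fw_adj_mul, one_mul] at h4
  exact h4

end ract

end Vale.Agent.P092.H132
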