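import Vale.Agent.P092.H160.Rep

/-!
P092 (helper132), team A: the modular conjugation of a regular representation, at the level of
operators: `jop h A = J A J`, where `J (m ω) = m* ω`.
-/

set_option linter.all false

open scoped InnerProductSpace
open Filter Topology ContinuousLinearMap

namespace Vale.Agent.P092.H132

open Vale.Agent.P092.H160

section jop

variable {Γ K : Type} [Group Γ] [NormedAddCommGroup K] [InnerProductSpace ℂ K] [CompleteSpace K]
  {ρ : Γ →* (K →L[ℂ] K)} {ω : K}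

/-- `J` as a map: the antiunitary with `J (ρ g ω) = ρ g⁻¹ ω`. -/
noncomputable def jj (h : RegRep ρ ω) (u : K) : K :=
  h.basis.repr.symm (cj (rei (Equiv.inv Γ) (h.basis.repr u)))

theorem repr_apply (h : RegRep ρ ω) (u : K) (g : Γ) : h.basis.repr u g = ⟪ρ g ω, u⟫_ℂ := by
  rw [HilbertBasis.repr_apply_apply, h.basis_apply]

theorem inner_jj (h : RegRep ρ ω) (u : K) (g : Γ) : ⟪ρ g ω, jj h u⟫_ℂ = ⟪u, ρ g⁻¹ ω⟫_ℂ := by
  rw [← repr_apply h, jj, LinearIsometryEquiv.apply_symm_apply, cj_apply, rei_apply, repr_apply h,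
    inner_conj_symm]
  rfl

theorem jj_add (h : RegRep ρ ω) (u v : K) : jj h (u + v) = jj h u + jj h v := by
  refine h.ext_vec fun g => ?_
  rw [inner_jj, inner_add_right, inner_jj, inner_jj, inner_add_left]

theorem jj_smul (h : RegRep ρ ω) (c : ℂ) (u : K) : jj h (c • u) = (starRingEnd ℂ) c • jj h u := by
  refine h.ext_vec fun g => ?_
  rw [inner_jj, inner_smul_right, inner_jj, inner_smul_left]

/-- `⟪u, J v⟫ = ⟪v, J u⟫` -/
theorem inner_jj_right (h : RegRep ρ ω) (u v : K) : ⟪u, jj h v⟫_ℂ = ⟪v, jj h u⟫_ℂ := by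
  have h1 := h.hasSum_inner u (jj h v)
  have h2 := h.hasSum_inner v (jj h u)
  rw [← (Equiv.inv Γ).hasSum_iff] at h2
  have e : ((fun g => ⟪v, ρ g ω⟫_ℂ * ⟪ρ g ω, jj h u⟫_ℂ) ∘ (Equiv.inv Γ)) =
      fun g => ⟪u, ρ g ω⟫_ℂ * ⟪ρ g ω, jj h v⟫_ℂ := by
    funext g
    change ⟪v, ρ g⁻¹ ω⟫_ℂ * ⟪ρ g⁻¹ ω, jj h u⟫_ℂ = _
    rw [inner_jj, inner_jj, inv_inv, mul_comm]
  rw [e] at h2
  exact h1.unique h2

theorem jj_jj (h : RegRep ρ ω) (u : K) : jj h (jj h u) = u := by
  refine h.ext_vec fun g => ?_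
  rw [inner_jj, ← inner_conj_symm, inner_jj, inner_conj_symm, inv_inv]

theorem norm_jj (h : RegRep ρ ω) (u : K) : ‖jj h u‖ = ‖u‖ := by
  have h1 : ⟪jj h u, jj h u⟫_ℂ = ⟪u, u⟫_ℂ := by rw [inner_jj_right, jj_jj]
  rw [inner_self_eq_norm_sq_to_K, inner_self_eq_norm_sq_to_K] at h1
  have h2 : ‖jj h u‖ ^ 2 = ‖u‖ ^ 2 := by exact_mod_cast h1
  exact (pow_left_inj₀ (norm_nonneg _) (norm_nonneg _) two_ne_zero).mp h2

/-- `⟪J u, J v⟫ = ⟪v, u⟫` -/
theorem inner_jj_jj (h : RegRep ρ ω) (u v : K) : ⟪jj h u, jj h v⟫_ℂ = ⟪v, u⟫_ℂ := by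
  rw [inner_jj_right, jj_jj]

theorem jj_rho (h : RegRep ρ ω) (g : Γ) : jj h (ρ g ω) = ρ g⁻¹ ω := by
  refine h.ext_vec fun x => ?_
  rw [inner_jj, h.inner_left, ← mul_ap, ← map_mul, h.inner_left x, ← mul_ap, ← map_mul]
  by_cases hx : g⁻¹ * x⁻¹ = 1
  · have e : x⁻¹ * g⁻¹ = 1 := by rwa [mul_eq_one_comm]
    rw [hx, e]
  · have e : x⁻¹ * g⁻¹ ≠ 1 := fun h1 => hx (mul_eq_one_comm.mp h1)
    rw [h.inner_zero _ hx, h.inner_zero _ e]

theorem jj_omega (h : RegRep ρ ω) : jj h ω = ω := by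
  have h1 := jj_rho h 1
  rw [inv_one, map_one] at h1
  exact h1

theorem jj_op (h : RegRep ρ ω) {A : K →L[ℂ] K} (hA : Cmm ρ A) : jj h (A ω) = adjoint A ω := by
  refine h.ext_vec fun g => ?_
  rw [inner_jj, adjoint_inner_right, hA.apply, h.inner_left]

/-- `jop h A = J A J` -/
noncomputable def jop (h : RegRep ρ ω) (A : K →L[ℂ] K) : K →L[ℂ] K :=
  LinearMap.mkContinuous
    { toFun := fun u => jj h (A (jj h u))
      map_add' := fun u v => by rw [jj_add, map_add, jj_add]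
      map_smul' := fun c u => by
        rw [jj_smul, map_smul, jj_smul, Complex.conj_conj]
        rfl } ‖A‖
    (fun u => by
      change ‖jj h (A (jj h u))‖ ≤ _
      rw [norm_jj]
      refine (A.le_opNorm _).trans ?_
      rw [norm_jj])

theorem jop_apply (h : RegRep ρ ω) (A : K →L[ℂ] K) (u : K) : jop h A u = jj h (A (jj h u)) := rfl

theorem jop_jj (h : RegRep ρ ω) (A : K →L[ℂ] K) (u : K) : jop h A (jj h u) = jj h (A u) := by
  rw [jop_apply, jj_jj]

theorem jop_mul (h : RegRep ρ ω) (A B : K →L[ℂ] K) : jop h (A * B) = jop h A * jop h B := by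
  ext1 u
  rw [mul_ap, jop_apply, jop_apply, jop_apply, jj_jj, mul_ap]

theorem jop_one (h : RegRep ρ ω) : jop h 1 = 1 := by
  ext1 u
  rw [jop_apply, one_apply_eq_self, one_apply_eq_self, jj_jj]

theorem jop_jop (h : RegRep ρ ω) (A : K →L[ℂ] K) : jop h (jop h A) = A := by
  ext1 u
  rw [jop_apply, jop_apply, jj_jj, jj_jj]

theorem adjoint_jop (h : RegRep ρ ω) (A : K →L[ℂ] K) : adjoint (jop h A) = jop h (adjoint A) := by
  rw [eq_comm, ContinuousLinearMap.eq_adjoint_iff]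
  intro u v
  rw [jop_apply, jop_apply, inner_jj_right h u, ← inner_conj_symm, inner_jj_right h v,
    inner_conj_symm, adjoint_inner_right]

theorem jop_omega (h : RegRep ρ ω) {A : K →L[ℂ] K} (hA : Cmm ρ A) :
    jop h A ω = adjoint A ω := by
  rw [jop_apply, jj_omega, jj_op h hA]

/-- The left regular representation `u g = J ρ g J`. -/
noncomputable def jrep (h : RegRep ρ ω) (σ : Γ →* (K →L[ℂ] K)) : Γ →* (K →L[ℂ] K) where
  toFun g := jop h (σ g)
  map_one' := by rw [map_one, jop_one]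
  map_mul' a b := by rw [map_mul, jop_mul]

theorem jrep_apply (h : RegRep ρ ω) (σ : Γ →* (K →L[ℂ] K)) (g : Γ) : jrep h σ g = jop h (σ g) := rfl

theorem jrep_omega (h : RegRep ρ ω) (g : Γ) : jrep h ρ g ω = ρ g⁻¹ ω := by
  rw [jrep_apply, jop_apply, jj_omega, jj_rho]

theorem jrep_cmm (h : RegRep ρ ω) (g : Γ) : Cmm ρ (jrep h ρ g) := fun s => by
  refine h.ext_op fun x => ?_
  rw [mul_ap, mul_ap, ← mul_ap (ρ s) (ρ x), ← map_mul, jrep_apply, jop_apply, jop_apply, jj_rho,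
    jj_rho, ← mul_ap, ← map_mul, jj_rho, ← mul_ap, ← map_mul, jj_rho, ← mul_ap, ← map_mul]
  congr 2
  group

theorem regRep_jrep (h : RegRep ρ ω) : RegRep (jrep h ρ) ω where
  adj g := by rw [jrep_apply, adjoint_jop, h.adj, jrep_apply]
  norm_one := h.norm_one
  inner_zero g hg := by
    rw [jrep_omega]
    exact h.inner_zero _ fun h1 => hg (inv_eq_one.mp h1)
  total v hv := by
    refine h.total v fun g => ?_
    have h1 := hv g⁻¹
    rwa [jrep_omega, inv_inv] at h1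

theorem cmm_jop (h : RegRep ρ ω) {A : K →L[ℂ] K} (hA : Cmm ρ A) : Cmm (jrep h ρ) (jop h A) :=
  fun g => by rw [jrep_apply, ← jop_mul, hA g, jop_mul]

/-- `J M J` commutes with `M`. -/
theorem jop_comm (h : RegRep ρ ω) {A B : K →L[ℂ] K} (hA : Cmm ρ A) (hB : Cmm ρ B) :
    jop h A * B = B * jop h A :=
  RegRep.commute h (regRep_jrep h) (fun g s => (jrep_cmm h s g).symm) (cmm_jop h hA) hB

/-- If `V` is another regular representation commuting with `ρ`, an operator commuting with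
`J V v J` for all `v` commutes with `ρ`. -/
theorem cmm_of_jop {Λ : Type} [Group Λ] {V : Λ →* (K →L[ℂ] K)} (h : RegRep ρ ω)
    (hV : RegRep V ω) (hc : ∀ v, Cmm ρ (V v)) {X : K →L[ℂ] K}
    (hX : ∀ v, X * jop h (V v) = jop h (V v) * X) : Cmm ρ X := by
  intro g
  have h1 : Cmm V (jop h X) := fun v => by
    have h2 := congrArg (jop h) (hX v)
    rwa [jop_mul, jop_mul, jop_jop] at h2
  have h2 := RegRep.commute h hV (fun g s => (hc s g).symm) h1 (jrep_cmm h g)
  have h3 := congrArg (jop h) h2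
  rw [jrep_apply, jop_mul, jop_mul, jop_jop, jop_jop] at h3
  exact h3

end jop

end Vale.Agent.P092.H132
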