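import Vale.Agent.P092.H432.PiA
import Vale.Agent.P092.H538.S6

/-!
P092 (helper132), stage (M): an abstract row model.  A `Base` is a Hilbert space with left
translations by `Γ`, multiplication by functions on `Γ`, a commutative set of scalars and a finite
family of trace vectors; `TRep` are the representations (by partial isometries with a common
support) which normalise the right algebra.  Instances: amplified frames on `ℓ²(Γ × ι)`, and the
induced representations on `L²(X; ℓ²(Γ × ι))`.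
-/

set_option linter.all false

open scoped InnerProductSpace
open Filter Topology ContinuousLinearMap

namespace Vale.Agent.P092.H132

open Vale.Agent.P092.H160 Vale.Agent.P092.H553

/-- The right algebra: operators commuting with the left translations and the scalars. -/
def RAof {Γ H : Type} [NormedAddCommGroup H] [InnerProductSpace ℂ H] (lx : Γ → (H →L[ℂ] H))
    (sc : Set (H →L[ℂ] H)) (T : H →L[ℂ] H) : Prop :=
  (∀ s, T * lx s = lx s * T) ∧ ∀ a ∈ sc, T * a = a * T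

/-- The abstract row model. -/
structure Base (Γ ι H : Type) [Group Γ] [Fintype ι] [NormedAddCommGroup H]
    [InnerProductSpace ℂ H] [CompleteSpace H] where
  lx : Γ → (H →L[ℂ] H)
  mp : (Γ → ℝ) → (H →L[ℂ] H)
  sc : Set (H →L[ℂ] H)
  ep : ι → H
  lx_mul : ∀ s t, lx (s * t) = lx s * lx t
  lx_one : lx 1 = 1
  lx_adj : ∀ s, adjoint (lx s) = lx s⁻¹
  mp_one : mp (fun _ => 1) = 1
  mp_add : ∀ {F G : Γ → ℝ} {C D : ℝ}, (∀ g, |F g| ≤ C) → (∀ g, |G g| ≤ D) →
    mp (fun g => F g + G g) = mp F + mp G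
  mp_smul : ∀ (c : ℝ) {F : Γ → ℝ} {C : ℝ}, (∀ g, |F g| ≤ C) →
    mp (fun g => c * F g) = (c : ℂ) • mp F
  mp_mul : ∀ {F G : Γ → ℝ} {C D : ℝ}, (∀ g, |F g| ≤ C) → (∀ g, |G g| ≤ D) →
    mp (fun g => F g * G g) = mp F * mp G
  mp_adj : ∀ {F : Γ → ℝ} {C : ℝ}, (∀ g, |F g| ≤ C) → adjoint (mp F) = mp F
  lx_mp : ∀ {F : Γ → ℝ} {C : ℝ}, (∀ g, |F g| ≤ C) → ∀ s,
    lx s * mp F = mp (fun g => F (s⁻¹ * g)) * lx s
  sc_one : (1 : H →L[ℂ] H) ∈ sc
  sc_adj : ∀ a ∈ sc, adjoint a = a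
  sc_le : ∀ a ∈ sc, ‖a‖ ≤ 1
  sc_lx : ∀ a ∈ sc, ∀ s, a * lx s = lx s * a
  sc_mp : ∀ a ∈ sc, ∀ {F : Γ → ℝ} {C : ℝ}, (∀ g, |F g| ≤ C) → a * mp F = mp F * a
  total : ∀ ξ : H, (∀ s, ∀ a ∈ sc, ∀ i, ⟪lx s (a (ep i)), ξ⟫_ℂ = 0) → ξ = 0
  exch : ∀ {S T : H →L[ℂ] H}, RAof lx sc S → RAof lx sc T → ∀ {q : Γ → ℝ} {C : ℝ},
    (∀ g, |q g| ≤ C) → ∑ i, ⟪adjoint S (ep i), mp q (T (ep i))⟫_ℂ =
      ∑ i, ⟪adjoint T (ep i), mp (fun g => q g⁻¹) (S (ep i))⟫_ℂ
  appr : ∀ {T : H →L[ℂ] H}, RAof lx sc T → ∀ {ε : ℝ}, 0 < ε →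
    ∃ (n : ℕ) (X : Fin n → (H →L[ℂ] H)) (u : Fin n → Γ), (∀ j, RAof lx sc (X j)) ∧
      (∀ j, ∀ {F : Γ → ℝ} {C : ℝ}, (∀ g, |F g| ≤ C) →
        mp F * X j = X j * mp (fun g => F (g * u j))) ∧
      ∑ i, ‖(T - ∑ j, X j) (ep i)‖ ^ 2 ≤ ε

section base

variable {Γ ι H : Type} [Group Γ] [Fintype ι] [NormedAddCommGroup H] [InnerProductSpace ℂ H]
  [CompleteSpace H]

theorem adj_mul (S T : H →L[ℂ] H) : adjoint (S * T) = adjoint T * adjoint S := by
  rw [← star_eq_adjoint, star_mul]; rfl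

theorem adj_adj (S : H →L[ℂ] H) : adjoint (adjoint S) = S := adjoint_adjoint S

theorem op_zero_of_inner {T : H →L[ℂ] H} (h : ∀ ξ η, ⟪ξ, T η⟫_ℂ = 0) : T = 0 := by
  ext η
  exact ext_inner_left ℂ fun ξ => by rw [h]; simp

namespace Base

variable (B : Base Γ ι H)

/-- The right algebra. -/
def RA (T : H →L[ℂ] H) : Prop := RAof B.lx B.sc T

variable {B}

theorem RA.lx' {T : H →L[ℂ] H} (h : B.RA T) (s : Γ) (ξ : H) : T (B.lx s ξ) = B.lx s (T ξ) :=
  congrArg (fun X : H →L[ℂ] H => X ξ) (h.1 s)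

theorem RA.sc' {T : H →L[ℂ] H} (h : B.RA T) {a : H →L[ℂ] H} (ha : a ∈ B.sc) (ξ : H) :
    T (a ξ) = a (T ξ) :=
  congrArg (fun X : H →L[ℂ] H => X ξ) (h.2 a ha)

theorem RA.mul {S T : H →L[ℂ] H} (hS : B.RA S) (hT : B.RA T) : B.RA (S * T) :=
  ⟨fun s => by rw [mul_assoc, hT.1, ← mul_assoc, hS.1, mul_assoc],
    fun a ha => by rw [mul_assoc, hT.2 a ha, ← mul_assoc, hS.2 a ha, mul_assoc]⟩

theorem RA.add {S T : H →L[ℂ] H} (hS : B.RA S) (hT : B.RA T) : B.RA (S + T) :=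
  ⟨fun s => by rw [add_mul, mul_add, hS.1, hT.1], fun a ha => by
    rw [add_mul, mul_add, hS.2 a ha, hT.2 a ha]⟩

theorem RA.sub {S T : H →L[ℂ] H} (hS : B.RA S) (hT : B.RA T) : B.RA (S - T) :=
  ⟨fun s => by rw [sub_mul, mul_sub, hS.1, hT.1], fun a ha => by
    rw [sub_mul, mul_sub, hS.2 a ha, hT.2 a ha]⟩

theorem RA.smul (c : ℂ) {T : H →L[ℂ] H} (hT : B.RA T) : B.RA (c • T) :=
  ⟨fun s => by rw [smul_mul_assoc, mul_smul_comm, hT.1], fun a ha => by
    rw [smul_mul_assoc, mul_smul_comm, hT.2 a ha]⟩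

theorem RA.one : B.RA (1 : H →L[ℂ] H) :=
  ⟨fun s => by rw [one_mul, mul_one], fun a ha => by rw [one_mul, mul_one]⟩

theorem RA.zero : B.RA (0 : H →L[ℂ] H) :=
  ⟨fun s => by rw [zero_mul, mul_zero], fun a ha => by rw [zero_mul, mul_zero]⟩

theorem RA.sum {α : Type*} (s : Finset α) {f : α → H →L[ℂ] H} (h : ∀ a ∈ s, B.RA (f a)) :
    B.RA (∑ a ∈ s, f a) := by
  classical
  induction s using Finset.induction_on with
  | empty => rw [Finset.sum_empty]; exact RA.zero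
  | insert a s ha ih =>
    rw [Finset.sum_insert ha]
    exact (h a (Finset.mem_insert_self a s)).add (ih fun b hb => h b (Finset.mem_insert_of_mem hb))

theorem RA.adj {T : H →L[ℂ] H} (h : B.RA T) : B.RA (adjoint T) := by
  refine ⟨fun s => ?_, fun a ha => ?_⟩
  · have h1 := congrArg adjoint (h.1 s⁻¹)
    rw [adj_mul, adj_mul, B.lx_adj, inv_inv] at h1
    exact h1.symm
  · have h1 := congrArg adjoint (h.2 a ha)
    rw [adj_mul, adj_mul, B.sc_adj a ha] at h1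
    exact h1.symm

variable (B)

theorem lx_mul_apply (s t : Γ) (ξ : H) : B.lx (s * t) ξ = B.lx s (B.lx t ξ) := by
  rw [B.lx_mul]; rfl

theorem lx_inv_apply (s : Γ) (ξ : H) : B.lx s⁻¹ (B.lx s ξ) = ξ := by
  rw [← lx_mul_apply, inv_mul_cancel, B.lx_one]; rfl

theorem lx_apply_inv (s : Γ) (ξ : H) : B.lx s (B.lx s⁻¹ ξ) = ξ := by
  rw [← lx_mul_apply, mul_inv_cancel, B.lx_one]; rfl

theorem inner_lx_left (s : Γ) (ξ η : H) : ⟪B.lx s ξ, η⟫_ℂ = ⟪ξ, B.lx s⁻¹ η⟫_ℂ := by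
  rw [← B.lx_adj, adjoint_inner_right]

theorem inner_lx_right (s : Γ) (ξ η : H) : ⟪ξ, B.lx s η⟫_ℂ = ⟪B.lx s⁻¹ ξ, η⟫_ℂ := by
  rw [← B.lx_adj, adjoint_inner_left]

theorem inner_lx (s : Γ) (ξ η : H) : ⟪B.lx s ξ, B.lx s η⟫_ℂ = ⟪ξ, η⟫_ℂ := by
  rw [inner_lx_left, lx_inv_apply]

theorem norm_lx (s : Γ) (ξ : H) : ‖B.lx s ξ‖ = ‖ξ‖ := by
  have h1 := B.inner_lx s ξ ξ
  rw [inner_self_eq_norm_sq_to_K, inner_self_eq_norm_sq_to_K] at h1
  have h2 : ‖B.lx s ξ‖ ^ 2 = ‖ξ‖ ^ 2 := by exact_mod_cast h1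
  exact (pow_left_inj₀ (norm_nonneg _) (norm_nonneg _) two_ne_zero).mp h2

section mp

variable {F G : Γ → ℝ} {C D : ℝ}

theorem inner_mp_left (hF : ∀ g, |F g| ≤ C) (ξ η : H) : ⟪B.mp F ξ, η⟫_ℂ = ⟪ξ, B.mp F η⟫_ℂ := by
  rw [← adjoint_inner_right, B.mp_adj hF]

theorem mp_mul_apply (hF : ∀ g, |F g| ≤ C) (hG : ∀ g, |G g| ≤ D) (ξ : H) :
    B.mp (fun g => F g * G g) ξ = B.mp F (B.mp G ξ) := by
  rw [B.mp_mul hF hG]; rfl

theorem mp_add_apply (hF : ∀ g, |F g| ≤ C) (hG : ∀ g, |G g| ≤ D) (ξ : H) :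
    B.mp (fun g => F g + G g) ξ = B.mp F ξ + B.mp G ξ := by
  rw [B.mp_add hF hG]; rfl

theorem mp_smul_apply (c : ℝ) (hF : ∀ g, |F g| ≤ C) (ξ : H) :
    B.mp (fun g => c * F g) ξ = (c : ℂ) • B.mp F ξ := by
  rw [B.mp_smul c hF]; rfl

theorem mp_one_apply (ξ : H) : B.mp (fun _ => (1 : ℝ)) ξ = ξ := by
  rw [B.mp_one]; rfl

theorem mp_sub (hF : ∀ g, |F g| ≤ C) (hG : ∀ g, |G g| ≤ D) :
    B.mp (fun g => F g - G g) = B.mp F - B.mp G := by
  have h1 : (fun g => F g - G g) = fun g => F g + (-1) * G g := by funext g; ring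
  rw [h1, B.mp_add hF (G := fun g => (-1) * G g) (D := D) (fun g => by
    rw [abs_mul, abs_neg, abs_one, one_mul]; exact hG g), B.mp_smul _ hG]
  ext ξ
  simp [sub_eq_add_neg]

theorem mp_sub_apply (hF : ∀ g, |F g| ≤ C) (hG : ∀ g, |G g| ≤ D) (ξ : H) :
    B.mp (fun g => F g - G g) ξ = B.mp F ξ - B.mp G ξ := by
  rw [B.mp_sub hF hG]; rfl

theorem inner_mp_sq (hF : ∀ g, |F g| ≤ C) (ξ : H) :
    (⟪ξ, B.mp (fun g => F g * F g) ξ⟫_ℂ).re = ‖B.mp F ξ‖ ^ 2 := by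
  rw [B.mp_mul_apply hF hF, ← B.inner_mp_left hF, inner_self_eq_norm_sq_to_K]
  norm_cast

theorem mp_re_nonneg (hF : ∀ g, |F g| ≤ C) (h : ∀ g, 0 ≤ F g) (ξ : H) :
    0 ≤ (⟪ξ, B.mp F ξ⟫_ℂ).re := by
  have h1 : F = fun g => Real.sqrt (F g) * Real.sqrt (F g) := by
    funext g; exact (Real.mul_self_sqrt (h g)).symm
  have h2 : ∀ g, |Real.sqrt (F g)| ≤ Real.sqrt C := fun g => by
    rw [abs_of_nonneg (Real.sqrt_nonneg _)]
    exact Real.sqrt_le_sqrt ((le_abs_self _).trans (hF g))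
  rw [h1, B.inner_mp_sq h2]
  positivity

theorem mp_im (hF : ∀ g, |F g| ≤ C) (ξ : H) : (⟪ξ, B.mp F ξ⟫_ℂ).im = 0 := by
  have h1 : ⟪B.mp F ξ, ξ⟫_ℂ = ⟪ξ, B.mp F ξ⟫_ℂ := B.inner_mp_left hF ξ ξ
  rw [← inner_conj_symm] at h1
  exact Complex.conj_eq_iff_im.mp h1

theorem mp_re_mono (hF : ∀ g, |F g| ≤ C) (hG : ∀ g, |G g| ≤ D) (h : ∀ g, F g ≤ G g) (ξ : H) :
    (⟪ξ, B.mp F ξ⟫_ℂ).re ≤ (⟪ξ, B.mp G ξ⟫_ℂ).re := by
  have h1 := B.mp_re_nonneg (F := fun g => G g - F g) (C := D + C) (fun g =>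
    (abs_sub _ _).trans (add_le_add (hG g) (hF g))) (fun g => sub_nonneg.mpr (h g)) ξ
  rw [B.mp_sub_apply hG hF, inner_sub_right, Complex.sub_re] at h1
  linarith

theorem norm_mp_le_mp (hF : ∀ g, |F g| ≤ C) (hG : ∀ g, |G g| ≤ D) (h : ∀ g, |F g| ≤ |G g|)
    (ξ : H) : ‖B.mp F ξ‖ ≤ ‖B.mp G ξ‖ := by
  refine abs_le_of_sq_le_sq' ?_ (norm_nonneg _) |>.2
  rw [← B.inner_mp_sq hF, ← B.inner_mp_sq hG]
  have hC : ∀ g, |F g * F g| ≤ C * C := fun g => by
    rw [abs_mul]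
    exact mul_le_mul (hF g) (hF g) (abs_nonneg _) ((abs_nonneg _).trans (hF g))
  have hD : ∀ g, |G g * G g| ≤ D * D := fun g => by
    rw [abs_mul]
    exact mul_le_mul (hG g) (hG g) (abs_nonneg _) ((abs_nonneg _).trans (hG g))
  refine B.mp_re_mono hC hD (fun g => ?_) ξ
  rw [← abs_mul_abs_self (F g), ← abs_mul_abs_self (G g)]
  exact mul_le_mul (h g) (h g) (abs_nonneg _) (abs_nonneg _)

theorem norm_mp_le (hF : ∀ g, |F g| ≤ C) (ξ : H) : ‖B.mp F ξ‖ ≤ C * ‖ξ‖ := by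
  have hC : 0 ≤ C := (abs_nonneg _).trans (hF 1)
  have h1 := B.norm_mp_le_mp hF (G := fun _ => C * 1) (D := C) (fun g => by
    rw [mul_one, abs_of_nonneg hC]) (fun g => by rw [mul_one, abs_of_nonneg hC]; exact hF g) ξ
  rw [B.mp_smul_apply C (F := fun _ => 1) (C := 1) (fun g => by simp), B.mp_one_apply, norm_smul,
    Complex.norm_real, Real.norm_of_nonneg hC] at h1
  exact h1

theorem opNorm_mp_le (hF : ∀ g, |F g| ≤ C) : ‖B.mp F‖ ≤ C :=
  ContinuousLinearMap.opNorm_le_bound _ ((abs_nonneg _).trans (hF 1)) (B.norm_mp_le hF)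

theorem lx_mp_apply (hF : ∀ g, |F g| ≤ C) (s : Γ) (ξ : H) :
    B.lx s (B.mp F ξ) = B.mp (fun g => F (s⁻¹ * g)) (B.lx s ξ) :=
  congrArg (fun X : H →L[ℂ] H => X ξ) (B.lx_mp hF s)

theorem mp_zero : B.mp (fun _ => (0 : ℝ)) = 0 := by
  have h1 := B.mp_smul (0 : ℝ) (F := fun _ => 1) (C := 1) (fun g => by simp)
  have h2 : (fun g : Γ => (0 : ℝ) * 1) = fun _ => 0 := by funext g; ring
  rw [h2] at h1
  rw [h1]; simp

theorem mp_sum {κ : Type*} (s : Finset κ) {F : κ → Γ → ℝ} {C : κ → ℝ}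
    (hF : ∀ i g, |F i g| ≤ C i) :
    B.mp (fun g => ∑ i ∈ s, F i g) = ∑ i ∈ s, B.mp (F i) := by
  classical
  induction s using Finset.induction_on with
  | empty => simp only [Finset.sum_empty]; exact B.mp_zero
  | insert i s hi ih =>
    rw [Finset.sum_insert hi, ← ih]
    have h1 : ∀ x, |∑ j ∈ s, F j x| ≤ ∑ j ∈ s, C j := fun x =>
      (Finset.abs_sum_le_sum_abs _ _).trans (Finset.sum_le_sum fun j _ => hF j x)
    rw [← B.mp_add (hF i) h1]
    congr 1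
    funext x
    rw [Finset.sum_insert hi]

end mp

/-! ### Density and separation -/

variable {B}

theorem RA.ext {S T : H →L[ℂ] H} (hS : B.RA S) (hT : B.RA T)
    (h : ∀ i, S (B.ep i) = T (B.ep i)) : S = T := by
  rw [← sub_eq_zero]
  obtain ⟨D, hD⟩ : ∃ D, D = S - T := ⟨_, rfl⟩
  have hDR : B.RA D := by rw [hD]; exact hS.sub hT
  have hDe : ∀ i, D (B.ep i) = 0 := fun i => by rw [hD, sub_apply, h, sub_self]
  rw [← hD]
  have h1 : ∀ ξ, adjoint D ξ = 0 := by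
    intro ξ
    refine B.total _ fun s a ha i => ?_
    rw [adjoint_inner_right, hDR.lx', hDR.sc' ha, hDe, map_zero, map_zero, inner_zero_left]
  refine op_zero_of_inner fun ξ η => ?_
  rw [← adjoint_inner_left, h1, inner_zero_left]

variable (B)

/-- The span of the total family is dense. -/
theorem dense_span : Dense ((Submodule.span ℂ {ξ : H | ∃ s, ∃ a ∈ B.sc, ∃ i,
    ξ = B.lx s (a (B.ep i))} : Submodule ℂ H) : Set H) := by
  rw [Submodule.dense_iff_topologicalClosure_eq_top, Submodule.topologicalClosure_eq_top_iff,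
    Submodule.eq_bot_iff]
  intro ξ hξ
  refine B.total ξ fun s a ha i => ?_
  have h1 : B.lx s (a (B.ep i)) ∈ Submodule.span ℂ {ξ : H | ∃ s, ∃ a ∈ B.sc, ∃ i,
      ξ = B.lx s (a (B.ep i))} := Submodule.subset_span ⟨s, a, ha, i, rfl⟩
  exact Submodule.inner_right_of_mem_orthogonal h1 hξ

/-- A bounded sequence of functionals tends to zero if it does so on the total family. -/
theorem tendsto_of_total {U : Ultrafilter ℕ} {E : Type*} [NormedAddCommGroup E] [NormedSpace ℂ E]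
    {f : ℕ → (H →L[ℂ] E)} {M : ℝ} (hf : ∀ k, ‖f k‖ ≤ M)
    (h : ∀ s, ∀ a ∈ B.sc, ∀ i, Tendsto (fun k => f k (B.lx s (a (B.ep i)))) U (𝓝 0)) (ξ : H) :
    Tendsto (fun k => f k ξ) U (𝓝 0) := by
  have hM : 0 ≤ M := (norm_nonneg _).trans (hf 0)
  have h1 : ∀ η ∈ Submodule.span ℂ {ξ : H | ∃ s, ∃ a ∈ B.sc, ∃ i, ξ = B.lx s (a (B.ep i))},
      Tendsto (fun k => f k η) U (𝓝 0) := by
    intro η hη
    induction hη using Submodule.span_induction with
    | mem x hx => obtain ⟨s, a, ha, i, rfl⟩ := hx; exact h s a ha i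
    | zero => simp only [map_zero]; exact tendsto_const_nhds
    | add x y _ _ hx hy =>
      have := hx.add hy
      rw [add_zero] at this
      exact this.congr fun k => (map_add _ _ _).symm
    | smul c x _ hx =>
      have := hx.const_smul c
      rw [smul_zero] at this
      exact this.congr fun k => (map_smul _ _ _).symm
  rw [Metric.tendsto_nhds]
  intro ε hε
  obtain ⟨η, hη, hd⟩ := Metric.mem_closure_iff.mp (B.dense_span ξ) (ε / (2 * (M + 1)))
    (by positivity)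
  filter_upwards [(Metric.tendsto_nhds.mp (h1 η hη)) (ε / 2) (by positivity)] with k hk
  rw [dist_zero_right] at hk ⊢
  have h2 : f k ξ = f k (ξ - η) + f k η := by rw [← map_add, sub_add_cancel]
  rw [h2]
  rw [dist_eq_norm] at hd
  have h3 : ‖f k (ξ - η)‖ ≤ ε / 2 := by
    calc _ ≤ ‖f k‖ * ‖ξ - η‖ := (f k).le_opNorm _
      _ ≤ (M + 1) * (ε / (2 * (M + 1))) := by
          have := hf k
          gcongr
          linarith
      _ = ε / 2 := by field_simp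
  calc _ ≤ ‖f k (ξ - η)‖ + ‖f k η‖ := norm_add_le _ _
    _ < ε := by linarith

/-- Weak convergence to zero can be checked on the total family. -/
theorem tendsto_inner_of_total {U : Ultrafilter ℕ} {f : ℕ → (H →L[ℂ] H)} {M : ℝ}
    (hf : ∀ k, ‖f k‖ ≤ M)
    (h : ∀ s, ∀ a ∈ B.sc, ∀ i, ∀ s', ∀ a' ∈ B.sc, ∀ i',
      Tendsto (fun k => ⟪B.lx s (a (B.ep i)), f k (B.lx s' (a' (B.ep i')))⟫_ℂ) U (𝓝 0))
    (ξ η : H) : Tendsto (fun k => ⟪ξ, f k η⟫_ℂ) U (𝓝 0) := by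
  have h1 : ∀ s, ∀ a ∈ B.sc, ∀ i, ∀ η, Tendsto (fun k => ⟪B.lx s (a (B.ep i)), f k η⟫_ℂ) U
      (𝓝 0) := by
    intro s a ha i
    refine B.tendsto_of_total (f := fun k => (innerSL ℂ (B.lx s (a (B.ep i)))).comp (f k))
      (M := ‖B.lx s (a (B.ep i))‖ * M) (fun k => ?_) (fun s' a' ha' i' => h s a ha i s' a' ha' i')
    refine (ContinuousLinearMap.opNorm_comp_le _ _).trans ?_
    rw [innerSL_apply_norm]
    have := hf k
    gcongr
  have h2 : ∀ η ξ, Tendsto (fun k => ⟪f k η, ξ⟫_ℂ) U (𝓝 0) := by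
    intro η
    refine B.tendsto_of_total (f := fun k => innerSL ℂ (f k η)) (M := M * ‖η‖) (fun k => ?_)
      fun s a ha i => ?_
    · rw [innerSL_apply_norm]
      refine ((f k).le_opNorm _).trans ?_
      have := hf k
      gcongr
    · have h3 := (Complex.continuous_conj.tendsto _).comp (h1 s a ha i η)
      rw [map_zero] at h3
      refine h3.congr fun k => ?_
      rw [Function.comp_apply, inner_conj_symm]; rfl
  have h3 := (Complex.continuous_conj.tendsto _).comp (h2 η ξ)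
  rw [map_zero] at h3
  refine h3.congr fun k => ?_
  rw [Function.comp_apply, inner_conj_symm]

/-! ### The trace -/

/-- The trace of the right algebra. -/
noncomputable def trA (T : H →L[ℂ] H) : ℂ := ∑ i, ⟪B.ep i, T (B.ep i)⟫_ℂ

/-- The square of the 2-norm. -/
noncomputable def nn (T : H →L[ℂ] H) : ℝ := ∑ i, ‖T (B.ep i)‖ ^ 2

theorem nn_nonneg (T : H →L[ℂ] H) : 0 ≤ B.nn T := Finset.sum_nonneg fun i _ => by positivity

theorem norm_sq_le_nn (T : H →L[ℂ] H) (i : ι) : ‖T (B.ep i)‖ ^ 2 ≤ B.nn T :=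
  Finset.single_le_sum (f := fun i => ‖T (B.ep i)‖ ^ 2) (fun i _ => by positivity)
    (Finset.mem_univ i)

theorem norm_le_nn (T : H →L[ℂ] H) (i : ι) : ‖T (B.ep i)‖ ≤ Real.sqrt (B.nn T) := by
  rw [← Real.sqrt_sq (norm_nonneg (T (B.ep i)))]
  exact Real.sqrt_le_sqrt (B.norm_sq_le_nn T i)

variable {B}

theorem trA_comm {S T : H →L[ℂ] H} (hS : B.RA S) (hT : B.RA T) :
    B.trA (S * T) = B.trA (T * S) := by
  have h := B.exch hS hT (q := fun _ => 1) (C := 1) (fun g => by simp)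
  simp only [B.mp_one_apply, adjoint_inner_left] at h
  exact h

variable (B)

theorem trA_add (S T : H →L[ℂ] H) : B.trA (S + T) = B.trA S + B.trA T := by
  rw [trA, trA, trA, ← Finset.sum_add_distrib]
  refine Finset.sum_congr rfl fun i _ => ?_
  rw [add_apply, inner_add_right]

theorem trA_sub (S T : H →L[ℂ] H) : B.trA (S - T) = B.trA S - B.trA T := by
  rw [trA, trA, trA, ← Finset.sum_sub_distrib]
  refine Finset.sum_congr rfl fun i _ => ?_
  rw [sub_apply, inner_sub_right]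

theorem trA_smul (c : ℂ) (T : H →L[ℂ] H) : B.trA (c • T) = c * B.trA T := by
  rw [trA, trA, Finset.mul_sum]
  refine Finset.sum_congr rfl fun i _ => ?_
  rw [smul_apply, inner_smul_right]

theorem trA_star_mul (T : H →L[ℂ] H) : B.trA (adjoint T * T) = (B.nn T : ℂ) := by
  rw [trA, nn, Complex.ofReal_sum]
  refine Finset.sum_congr rfl fun i _ => ?_
  rw [mul_ap, adjoint_inner_right, inner_self_eq_norm_sq_to_K]
  norm_cast

variable {B}

theorem nn_adjoint {T : H →L[ℂ] H} (hT : B.RA T) : B.nn (adjoint T) = B.nn T := by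
  have h := trA_comm hT.adj hT
  have h2 := B.trA_star_mul (adjoint T)
  rw [adj_adj] at h2
  rw [trA_star_mul, h2] at h
  exact_mod_cast h.symm

variable (B)

theorem nn_mul_le_left (S T : H →L[ℂ] H) : B.nn (S * T) ≤ ‖S‖ ^ 2 * B.nn T := by
  rw [nn, nn, Finset.mul_sum]
  refine Finset.sum_le_sum fun i _ => ?_
  rw [mul_ap, ← mul_pow]
  have := S.le_opNorm (T (B.ep i))
  gcongr

variable {B}

theorem nn_mul_le_right {S T : H →L[ℂ] H} (hS : B.RA S) (hT : B.RA T) :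
    B.nn (S * T) ≤ ‖T‖ ^ 2 * B.nn S := by
  rw [← nn_adjoint (hS.mul hT), adj_mul, ← nn_adjoint hS]
  refine (B.nn_mul_le_left _ _).trans ?_
  rw [LinearIsometryEquiv.norm_map]

theorem nn_eq_zero {T : H →L[ℂ] H} (hT : B.RA T) (h : B.nn T = 0) : T = 0 := by
  refine hT.ext RA.zero fun i => ?_
  have h1 := B.norm_sq_le_nn T i
  rw [h] at h1
  have h2 : ‖T (B.ep i)‖ ^ 2 = 0 := le_antisymm h1 (by positivity)
  have h3 : ‖T (B.ep i)‖ = 0 := by simpa using h2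
  rw [norm_eq_zero.mp h3, zero_apply]

theorem RA.ext_tr {S T : H →L[ℂ] H} (hS : B.RA S) (hT : B.RA T)
    (h : B.trA (adjoint (S - T) * S) = B.trA (adjoint (S - T) * T)) : S = T := by
  have h1 : B.trA (adjoint (S - T) * (S - T)) = 0 := by
    rw [mul_sub, trA_sub, h, sub_self]
  rw [trA_star_mul] at h1
  have h2 : B.nn (S - T) = 0 := by exact_mod_cast h1
  exact sub_eq_zero.mp (nn_eq_zero (hS.sub hT) h2)

end Base

/-! ### Koopman operators and the normaliser -/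

/-- Unitaries commuting with translations and functions, fixing the trace vectors and normalising
the scalars. -/
structure Koop (B : Base Γ ι H) (K : H →L[ℂ] H) : Prop where
  left : adjoint K * K = 1
  right : K * adjoint K = 1
  lx : ∀ s, K * B.lx s = B.lx s * K
  mp : ∀ {F : Γ → ℝ} {C : ℝ}, (∀ g, |F g| ≤ C) → K * B.mp F = B.mp F * K
  ep : ∀ i, K (B.ep i) = B.ep i
  sc : ∀ a ∈ B.sc, K * a * adjoint K ∈ B.sc
  sc' : ∀ a ∈ B.sc, adjoint K * a * K ∈ B.sc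

/-- The normaliser class. -/
def NR (B : Base Γ ι H) (T : H →L[ℂ] H) : Prop := ∃ X K, B.RA X ∧ Koop B K ∧ T = X * K

namespace Koop

variable {B : Base Γ ι H} {K L : H →L[ℂ] H}

theorem one : Koop B (1 : H →L[ℂ] H) := by
  have h1 : adjoint (1 : H →L[ℂ] H) = 1 := by
    rw [← star_eq_adjoint, star_one]
  refine ⟨by rw [h1, one_mul], by rw [h1, one_mul], fun s => by rw [one_mul, mul_one],
    fun h => by rw [one_mul, mul_one], fun i => rfl, fun a ha => ?_, fun a ha => ?_⟩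
  · rw [h1, one_mul, mul_one]; exact ha
  · rw [h1, one_mul, mul_one]; exact ha

theorem adj_lx (h : Koop B K) (s : Γ) : adjoint K * B.lx s = B.lx s * adjoint K := by
  have h1 := congrArg adjoint (h.lx s⁻¹)
  rw [adj_mul, adj_mul, B.lx_adj, inv_inv] at h1
  exact h1.symm

theorem adj_mp (h : Koop B K) {F : Γ → ℝ} {C : ℝ} (hF : ∀ g, |F g| ≤ C) :
    adjoint K * B.mp F = B.mp F * adjoint K := by
  have h1 := congrArg adjoint (h.mp hF)
  rw [adj_mul, adj_mul, B.mp_adj hF] at h1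
  exact h1.symm

theorem adj_ep (h : Koop B K) (i : ι) : adjoint K (B.ep i) = B.ep i := by
  have h1 : adjoint K (K (B.ep i)) = B.ep i := by
    rw [← mul_ap, h.left]; rfl
  rwa [h.ep] at h1

theorem adj (h : Koop B K) : Koop B (adjoint K) := by
  refine ⟨?_, ?_, h.adj_lx, h.adj_mp, h.adj_ep, fun a ha => ?_, fun a ha => ?_⟩
  · rw [adj_adj]; exact h.right
  · rw [adj_adj]; exact h.left
  · rw [adj_adj]; exact h.sc' a ha
  · rw [adj_adj]; exact h.sc a ha

theorem mul (h : Koop B K) (h' : Koop B L) : Koop B (K * L) := by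
  refine ⟨?_, ?_, fun s => ?_, fun hF => ?_, fun i => ?_, fun a ha => ?_, fun a ha => ?_⟩
  · rw [adj_mul, mul_assoc, ← mul_assoc (adjoint K), h.left, one_mul, h'.left]
  · rw [adj_mul, mul_assoc, ← mul_assoc L, h'.right, one_mul, h.right]
  · rw [mul_assoc, h'.lx, ← mul_assoc, h.lx, mul_assoc]
  · rw [mul_assoc, h'.mp hF, ← mul_assoc, h.mp hF, mul_assoc]
  · rw [mul_ap, h'.ep, h.ep]
  · have := h.sc _ (h'.sc a ha)
    rw [adj_mul]
    simpa only [mul_assoc] using this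
  · have := h'.sc' _ (h.sc' a ha)
    rw [adj_mul]
    simpa only [mul_assoc] using this

/-- Koopman operators normalise the right algebra. -/
theorem conj (h : Koop B K) {T : H →L[ℂ] H} (hT : B.RA T) : B.RA (K * T * adjoint K) := by
  refine ⟨fun s => ?_, fun a ha => ?_⟩
  · calc K * T * adjoint K * B.lx s = K * T * (adjoint K * B.lx s) := by rw [mul_assoc]
      _ = K * (T * B.lx s) * adjoint K := by rw [h.adj_lx]; simp only [mul_assoc]
      _ = (K * B.lx s) * T * adjoint K := by rw [hT.1]; simp only [mul_assoc]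
      _ = _ := by rw [h.lx]; simp only [mul_assoc]
  · obtain ⟨b, hb⟩ : ∃ b, b = adjoint K * a * K := ⟨_, rfl⟩
    have hbs : b ∈ B.sc := by rw [hb]; exact h.sc' a ha
    have e1 : adjoint K * a = b * adjoint K := by
      rw [hb, mul_assoc, h.right, mul_one]
    have e2 : a * K = K * b := by
      rw [hb, ← mul_assoc, ← mul_assoc, h.right, one_mul]
    calc K * T * adjoint K * a = K * T * (adjoint K * a) := by rw [mul_assoc]
      _ = K * (T * b) * adjoint K := by rw [e1]; simp only [mul_assoc]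
      _ = (K * b) * T * adjoint K := by rw [hT.2 b hbs]; simp only [mul_assoc]
      _ = _ := by rw [← e2]; simp only [mul_assoc]

theorem conj' (h : Koop B K) {T : H →L[ℂ] H} (hT : B.RA T) : B.RA (adjoint K * T * K) := by
  have := h.adj.conj hT
  rwa [adj_adj] at this

theorem norm_map (h : Koop B K) (ξ : H) : ‖K ξ‖ = ‖ξ‖ := by
  have h1 : ⟪K ξ, K ξ⟫_ℂ = ⟪ξ, ξ⟫_ℂ := by
    rw [← adjoint_inner_right, ← mul_ap, h.left]; rfl
  rw [inner_self_eq_norm_sq_to_K, inner_self_eq_norm_sq_to_K] at h1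
  have h2 : ‖K ξ‖ ^ 2 = ‖ξ‖ ^ 2 := by exact_mod_cast h1
  exact (pow_left_inj₀ (norm_nonneg _) (norm_nonneg _) two_ne_zero).mp h2

theorem opNorm_le (h : Koop B K) : ‖K‖ ≤ 1 :=
  ContinuousLinearMap.opNorm_le_bound _ zero_le_one fun ξ => by rw [one_mul, h.norm_map]

end Koop

namespace NR

variable {B : Base Γ ι H} {S T : H →L[ℂ] H}

theorem of_ra (h : B.RA T) : NR B T := ⟨T, 1, h, Koop.one, (mul_one T).symm⟩

theorem mul (hS : NR B S) (hT : NR B T) : NR B (S * T) := by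
  obtain ⟨X, K, hX, hK, rfl⟩ := hS
  obtain ⟨Y, L, hY, hL, rfl⟩ := hT
  refine ⟨X * (K * Y * adjoint K), K * L, hX.mul (hK.conj hY), hK.mul hL, ?_⟩
  calc X * K * (Y * L) = X * (K * Y * 1) * L := by simp only [mul_assoc, one_mul, mul_one]
    _ = X * (K * Y * (adjoint K * K)) * L := by rw [hK.left]
    _ = _ := by simp only [mul_assoc]

theorem adj (hS : NR B S) : NR B (adjoint S) := by
  obtain ⟨X, K, hX, hK, rfl⟩ := hS
  refine ⟨adjoint K * adjoint X * K, adjoint K, hK.conj' hX.adj, hK.adj, ?_⟩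
  rw [adj_mul, mul_assoc (adjoint K * adjoint X), hK.right, mul_one]

theorem lx (h : NR B T) (s : Γ) : T * B.lx s = B.lx s * T := by
  obtain ⟨X, K, hX, hK, rfl⟩ := h
  rw [mul_assoc, hK.lx, ← mul_assoc, hX.1, mul_assoc]

theorem lx' (h : NR B T) (s : Γ) (ξ : H) : T (B.lx s ξ) = B.lx s (T ξ) :=
  congrArg (fun X : H →L[ℂ] H => X ξ) (h.lx s)

/-- Scalars move through. -/
theorem sc (h : NR B T) {a : H →L[ℂ] H} (ha : a ∈ B.sc) : ∃ a' ∈ B.sc, T * a = a' * T := by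
  obtain ⟨X, K, hX, hK, rfl⟩ := h
  refine ⟨K * a * adjoint K, hK.sc a ha, ?_⟩
  have e1 : K * a = (K * a * adjoint K) * K := by
    rw [mul_assoc (K * a), hK.left, mul_one]
  calc X * K * a = X * (K * a) := mul_assoc _ _ _
    _ = X * ((K * a * adjoint K) * K) := by rw [← e1]
    _ = X * (K * a * adjoint K) * K := (mul_assoc _ _ _).symm
    _ = K * a * adjoint K * X * K := by rw [hX.2 _ (hK.sc a ha)]
    _ = _ := mul_assoc _ _ _

/-- Estimate for right multiplication. -/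
theorem nn_mul_le (h : NR B T) (hS : B.RA S) : B.nn (S * T) ≤ ‖T‖ ^ 2 * B.nn S := by
  obtain ⟨X, K, hX, hK, rfl⟩ := h
  have h1 : B.nn (S * (X * K)) = B.nn (S * X) := by
    rw [Base.nn, Base.nn]
    refine Finset.sum_congr rfl fun i _ => ?_
    rw [mul_ap, mul_ap, hK.ep, ← mul_ap]
  rw [h1]
  refine (Base.nn_mul_le_right hS hX).trans ?_
  have h2 : ‖X‖ ≤ ‖X * K‖ := by
    have h3 : X = (X * K) * adjoint K := by rw [mul_assoc, hK.right, mul_one]
    have h4 : ‖adjoint K‖ ≤ 1 := hK.adj.opNorm_le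
    calc ‖X‖ = ‖(X * K) * adjoint K‖ := by rw [← h3]
      _ ≤ ‖X * K‖ * ‖adjoint K‖ := norm_mul_le _ _
      _ ≤ ‖X * K‖ * 1 := by gcongr
      _ = _ := mul_one _
  have := B.nn_nonneg S
  gcongr

/-- The trace of conjugates. -/
theorem conj (h : NR B T) (hS : B.RA S) : B.RA (T * S * adjoint T) := by
  obtain ⟨X, K, hX, hK, rfl⟩ := h
  have h1 := (hX.mul (hK.conj hS)).mul hX.adj
  have h2 : X * K * S * adjoint (X * K) = X * (K * S * adjoint K) * adjoint X := by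
    rw [adj_mul]; simp only [mul_assoc]
  rw [h2]; exact h1

theorem trA_conj (h : NR B T) (hS : B.RA S) :
    B.trA (T * S * adjoint T) = B.trA (adjoint T * T * S) := by
  obtain ⟨X, K, hX, hK, rfl⟩ := h
  have h2 : X * K * S * adjoint (X * K) = X * ((K * S * adjoint K) * adjoint X) := by
    rw [adj_mul]; simp only [mul_assoc]
  rw [h2, Base.trA_comm hX ((hK.conj hS).mul hX.adj)]
  have h3 : ∀ Y : H →L[ℂ] H, B.trA (K * Y * adjoint K) = B.trA Y := by
    intro Y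
    rw [Base.trA, Base.trA]
    refine Finset.sum_congr rfl fun i _ => ?_
    rw [mul_ap, mul_ap, hK.adj_ep, ← adjoint_inner_left, hK.adj_ep]
  have h4 : K * S * adjoint K * adjoint X * X =
      K * (S * (adjoint K * (adjoint X * X) * K)) * adjoint K := by
    have : K * adjoint K = 1 := hK.right
    calc K * S * adjoint K * adjoint X * X
        = K * S * adjoint K * adjoint X * X * (K * adjoint K) := by rw [this, mul_one]
      _ = _ := by simp only [mul_assoc]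
  rw [h4, h3, Base.trA_comm hS (hK.conj' (hX.adj.mul hX))]
  congr 1
  rw [adj_mul]
  simp only [mul_assoc]

end NR

end base

end Vale.Agent.P092.H132
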