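import Vale.Agent.P092.H132.Ract

/-!
P092 (helper132), team A: the conjugation representation of `Λ` on `L²(G; K)` and its coefficient
at the vector `1_U ω`.
-/

set_option linter.all false

open scoped InnerProductSpace ENNReal Pointwise
open Filter Topology ContinuousLinearMap MeasureTheory

namespace Vale.Agent.P092.H132

open Vale.Agent.P092.H160 Vale.Agent.P092.H790
open Vale.Agent.P092.H325 (tl tr tl_ae tr_ae norm_tl norm_tr coef coef_ae bessel)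
open Vale.Agent.P092.H156.Sm (Frm)

section field

variable {Γ Λ G K : Type} [Group Γ] [Countable Γ] [Group Λ] [Group G] [TopologicalSpace G]
  [IsTopologicalGroup G] [MeasurableSpace G] [BorelSpace G] [NormedAddCommGroup K]
  [InnerProductSpace ℂ K] [CompleteSpace K] {ρ : Γ →* (K →L[ℂ] K)} {ω : K}
  {μ : Measure G} [μ.IsMulLeftInvariant]

/-- left multiplications commute with `rl` -/
theorem lft_rl (ι : Γ →* G) {A : K →L[ℂ] K} (hA : Cmm ρ A) (γ : Γ) :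
    A.compLpL 2 μ * rl ι ρ μ γ = rl ι ρ μ γ * A.compLpL 2 μ := by
  ext1 ξ
  change A.compLpL 2 μ ((ρ γ).compLpL 2 μ (tl μ (ι γ) ξ)) =
    (ρ γ).compLpL 2 μ (tl μ (ι γ) (A.compLpL 2 μ ξ))
  rw [tl_comp]
  have h1 := congrArg (fun B : K →L[ℂ] K => B.compLpL 2 μ (tl μ (ι γ) ξ)) (hA γ)
  simp only [comp_mul] at h1
  exact h1

/-- right translations commute with `rl` -/
theorem tr_rl [μ.IsMulRightInvariant] (ι : Γ →* G) (y : G) (γ : Γ) :
    tr μ y * rl ι ρ μ γ = rl ι ρ μ γ * tr μ y := by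
  ext1 ξ
  change tr μ y ((ρ γ).compLpL 2 μ (tl μ (ι γ) ξ)) =
    (ρ γ).compLpL 2 μ (tl μ (ι γ) (tr μ y ξ))
  rw [tr_comp, tl_tr]

/-- left and right multiplications commute -/
theorem lft_rt (h : RegRep ρ ω) (ι : Γ →* G) {A B : K →L[ℂ] K} (hA : Cmm ρ A) (hB : Cmm ρ B) :
    A.compLpL 2 μ * rt h ι μ B = rt h ι μ B * A.compLpL 2 μ :=
  rt_comm h ι hB fun γ => lft_rl ι hA γ

theorem tr_rt [μ.IsMulRightInvariant] (h : RegRep ρ ω) (ι : Γ →* G) (y : G) {B : K →L[ℂ] K}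
    (hB : Cmm ρ B) : tr μ y * rt h ι μ B = rt h ι μ B * tr μ y :=
  rt_comm h ι hB fun γ => tr_rl ι y γ

theorem adjoint_tl (y : G) : adjoint (tl μ y : Lp K 2 μ →L[ℂ] Lp K 2 μ) = tl μ y⁻¹ := by
  rw [eq_comm, ContinuousLinearMap.eq_adjoint_iff]
  intro ξ η
  have hi : ∀ ξ η : Lp K 2 μ, ⟪tl μ y ξ, tl μ y η⟫_ℂ = ⟪ξ, η⟫_ℂ := fun ξ η =>
    (LinearIsometry.mk ((tl μ y : Lp K 2 μ →L[ℂ] Lp K 2 μ) : Lp K 2 μ →ₗ[ℂ] Lp K 2 μ)
      (fun ζ => norm_tl μ y ζ)).inner_map_map ξ η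
  rw [← hi, tl_tl_inv]

theorem adjoint_rl (h : RegRep ρ ω) (ι : Γ →* G) (γ : Γ) :
    adjoint (rl ι ρ μ γ) = rl ι ρ μ γ⁻¹ := by
  rw [rl, rl, ← star_eq_adjoint, star_mul, star_eq_adjoint, star_eq_adjoint, comp_adjoint, h.adj,
    adjoint_tl, map_inv ι]
  ext1 ξ
  exact tl_comp _ _ _

theorem norm_rl (h : RegRep ρ ω) (ι : Γ →* G) (γ : Γ) (ξ : Lp K 2 μ) :
    ‖rl ι ρ μ γ ξ‖ = ‖ξ‖ := by
  change ‖(ρ γ).compLpL 2 μ (tl μ (ι γ) ξ)‖ = _
  rw [← norm_tl μ (ι γ) ξ]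
  have h1 : ∀ᵐ x ∂μ, ‖((ρ γ).compLpL 2 μ (tl μ (ι γ) ξ)) x‖ = ‖(tl μ (ι γ) ξ) x‖ := by
    filter_upwards [coeFn_compLpL (ρ γ) (tl μ (ι γ) ξ)] with x hx
    rw [hx, h.norm_map]
  exact le_antisymm (Lp.norm_le_norm_of_ae_le (h1.mono fun x hx => hx.le))
    (Lp.norm_le_norm_of_ae_le (h1.mono fun x hx => hx.ge))

/-- The right multiplication on fields: `rt A (b ω) = b A* ω`. -/
theorem rt_field (h : RegRep ρ ω) (ι : Γ →* G) {A : K →L[ℂ] K} (hA : Cmm ρ A)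
    {b : G → K →L[ℂ] K} (hb : ∀ γ x, b (ι γ * x) = ρ γ * b x * ρ γ⁻¹) {ξ : Lp K 2 μ}
    (hξ : ξ =ᵐ[μ] fun x => b x ω) : rt h ι μ A ξ =ᵐ[μ] fun x => b x (adjoint A ω) := by
  have hq : ∀ y : G, ∀ {p : G → Prop}, (∀ᵐ x ∂μ, p x) → ∀ᵐ x ∂μ, p (y * x) := fun y p hp =>
    (measurePreserving_mul_left μ y).quasiMeasurePreserving.ae hp
  have h1 : ∀ᵐ x ∂μ, (fw h ι μ ξ) x = jj h (adjoint (b x) ω) := by
    have h2 : ∀ᵐ x ∂μ, ∀ g : Γ, ⟪ρ g ω, (fw h ι μ ξ) x⟫_ℂ = ⟪ρ g ω, jj h (adjoint (b x) ω)⟫_ℂ := by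
      rw [ae_all_iff]
      intro g
      have h3 := coef_ae μ h.basis g (fw h ι μ ξ)
      rw [coef_fw] at h3
      filter_upwards [h3, tl_ae μ (ι g)⁻¹ (coef μ h.basis g ξ), hq (ι g) (coef_ae μ h.basis g ξ),
        hq (ι g) hξ] with x h3 h4 h5 h6
      rw [h4, inv_inv, h5, h6, h.basis_apply] at h3
      rw [← h3, hb, mul_ap, mul_ap, h.inner_map, inner_jj, adjoint_inner_left]
    filter_upwards [h2] with x hx
    exact h.ext_vec hx
  have h2 : ∀ᵐ x ∂μ, ((jop h A).compLpL 2 μ (fw h ι μ ξ)) x = jj h (A (adjoint (b x) ω)) := by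
    filter_upwards [h1, coeFn_compLpL (jop h A) (fw h ι μ ξ)] with x h3 h4
    rw [h4, h3, jop_jj]
  have h3 : ∀ᵐ x ∂μ, ∀ g : Γ, ⟪ρ g ω, (rt h ι μ A ξ) x⟫_ℂ = ⟪ρ g ω, b x (adjoint A ω)⟫_ℂ := by
    rw [ae_all_iff]
    intro g
    have h3 : coef μ h.basis g (rt h ι μ A ξ) =ᵐ[μ] fun x => ⟪h.basis g, (rt h ι μ A ξ) x⟫_ℂ :=
      coef_ae μ h.basis g (rt h ι μ A ξ)
    have e : rt h ι μ A ξ = adjoint (fw h ι μ) ((jop h A).compLpL 2 μ (fw h ι μ ξ)) := rfl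
    rw [e, coef_adj_fw, ← e] at h3
    filter_upwards [h3, tl_ae μ (ι g) (coef μ h.basis g ((jop h A).compLpL 2 μ (fw h ι μ ξ))),
      hq (ι g)⁻¹ (coef_ae μ h.basis g ((jop h A).compLpL 2 μ (fw h ι μ ξ))), hq (ι g)⁻¹ h2]
      with x h3 h4 h5 h6
    rw [h4, h5, h6, h.basis_apply] at h3
    have e2 : b x = ρ g * b ((ι g)⁻¹ * x) * ρ g⁻¹ := by rw [← hb, mul_inv_cancel_left]
    have e3 : adjoint A (ρ g ω) = ρ g (adjoint A ω) := (h.cmm_adjoint hA).apply g ω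
    rw [← h3, inner_jj, e2, mul_ap, mul_ap, h.inner_map, ← adjoint_inner_right A,
      adjoint_inner_left, (h.cmm_adjoint hA).apply]
  filter_upwards [h3] with x hx
  exact h.ext_vec hx

/-- The right action `v ↦ (ξ ↦ ξ V_v*)`. -/
noncomputable def ract (h : RegRep ρ ω) (ι : Γ →* G) (μ : Measure G) [μ.IsMulLeftInvariant]
    (V : Λ →* (K →L[ℂ] K)) : Λ →* (Lp K 2 μ →L[ℂ] Lp K 2 μ) where
  toFun v := rt h ι μ (V v)
  map_one' := by rw [map_one, rt_one]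
  map_mul' v w := by rw [map_mul, rt_mul]

theorem ract_apply (h : RegRep ρ ω) (ι : Γ →* G) (V : Λ →* (K →L[ℂ] K)) (v : Λ) :
    ract h ι μ V v = rt h ι μ (V v) := rfl

variable {V : Λ →* (K →L[ℂ] K)}

theorem adjoint_ract (hF : Frm ρ V ω) (ι : Γ →* G) (v : Λ) :
    adjoint (ract hF.reg ι μ V v) = ract hF.reg ι μ V v⁻¹ := by
  rw [ract_apply, ract_apply, adjoint_rt, hF.adj]

/-- `R v (b ω) = b V_v⁻¹ ω` -/
theorem ract_field (hF : Frm ρ V ω) (ι : Γ →* G) (v : Λ) {b : G → K →L[ℂ] K}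
    (hb : ∀ γ x, b (ι γ * x) = ρ γ * b x * ρ γ⁻¹) {ξ : Lp K 2 μ}
    (hξ : ξ =ᵐ[μ] fun x => b x ω) : ract hF.reg ι μ V v ξ =ᵐ[μ] fun x => b x (V v⁻¹ ω) := by
  have h1 := rt_field hF.reg ι (hF.comm v) hb hξ
  rwa [hF.adj] at h1

/-- The conjugation representation `ξ ↦ V_v ξ V_v*`. -/
noncomputable def cjr (hF : Frm ρ V ω) (ι : Γ →* G) (μ : Measure G) [μ.IsMulLeftInvariant] :
    Λ →* (Lp K 2 μ →L[ℂ] Lp K 2 μ) where
  toFun v := (V v).compLpL 2 μ * rt hF.reg ι μ (V v)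
  map_one' := by rw [map_one, rt_one, comp_one, mul_one]
  map_mul' v w := by
    rw [map_mul, rt_mul, comp_mul]
    have h1 := lft_rt (μ := μ) hF.reg ι (hF.comm w) (hF.comm v)
    calc (V v).compLpL 2 μ * (V w).compLpL 2 μ * (rt hF.reg ι μ (V v) * rt hF.reg ι μ (V w))
        = (V v).compLpL 2 μ * ((V w).compLpL 2 μ * rt hF.reg ι μ (V v)) * rt hF.reg ι μ (V w) := by
          simp only [mul_assoc]
      _ = _ := by rw [h1]; simp only [mul_assoc]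

theorem cjr_apply (hF : Frm ρ V ω) (ι : Γ →* G) (v : Λ) :
    cjr hF ι μ v = (V v).compLpL 2 μ * rt hF.reg ι μ (V v) := rfl

theorem adjoint_cjr (hF : Frm ρ V ω) (ι : Γ →* G) (v : Λ) :
    adjoint (cjr hF ι μ v) = cjr hF ι μ v⁻¹ := by
  rw [cjr_apply, cjr_apply, lft_rt hF.reg ι (hF.comm _) (hF.comm _), ← star_eq_adjoint, star_mul,
    star_eq_adjoint, star_eq_adjoint, adjoint_rt, comp_adjoint, hF.adj,
    lft_rt hF.reg ι (hF.comm _) (hF.comm _)]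

theorem cjr_inv_apply (hF : Frm ρ V ω) (ι : Γ →* G) (v : Λ) (ξ : Lp K 2 μ) :
    cjr hF ι μ v⁻¹ (cjr hF ι μ v ξ) = ξ := by
  have h1 : cjr hF ι μ v⁻¹ * cjr hF ι μ v = 1 := by rw [← map_mul, inv_mul_cancel, map_one]
  exact congrArg (fun T : Lp K 2 μ →L[ℂ] Lp K 2 μ => T ξ) h1

theorem norm_cjr (hF : Frm ρ V ω) (ι : Γ →* G) (v : Λ) (ξ : Lp K 2 μ) :
    ‖cjr hF ι μ v ξ‖ = ‖ξ‖ := by
  have h1 : ⟪cjr hF ι μ v ξ, cjr hF ι μ v ξ⟫_ℂ = ⟪ξ, ξ⟫_ℂ := by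
    rw [← adjoint_inner_right, adjoint_cjr, cjr_inv_apply]
  rw [inner_self_eq_norm_sq_to_K, inner_self_eq_norm_sq_to_K] at h1
  have h2 : ‖cjr hF ι μ v ξ‖ ^ 2 = ‖ξ‖ ^ 2 := by exact_mod_cast h1
  exact (pow_left_inj₀ (norm_nonneg _) (norm_nonneg _) two_ne_zero).mp h2

/-- `cj v (b ω) = (V_v b V_v⁻¹) ω` -/
theorem cjr_field (hF : Frm ρ V ω) (ι : Γ →* G) (v : Λ) {b : G → K →L[ℂ] K}
    (hb : ∀ γ x, b (ι γ * x) = ρ γ * b x * ρ γ⁻¹) {ξ : Lp K 2 μ}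
    (hξ : ξ =ᵐ[μ] fun x => b x ω) :
    cjr hF ι μ v ξ =ᵐ[μ] fun x => (V v * b x * V v⁻¹) ω := by
  have h1 := ract_field hF ι v hb hξ
  rw [ract_apply] at h1
  filter_upwards [h1, coeFn_compLpL (V v) (rt hF.reg ι μ (V v) ξ)] with x h2 h3
  change ((V v).compLpL 2 μ (rt hF.reg ι μ (V v) ξ)) x = V v (b x (V v⁻¹ ω))
  rw [h3, h2]

/-- right translations commute with the conjugation representation -/
theorem tr_cjr [μ.IsMulRightInvariant] (hF : Frm ρ V ω) (ι : Γ →* G) (y : G) (v : Λ) :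
    tr μ y * cjr hF ι μ v = cjr hF ι μ v * tr μ y := by
  rw [cjr_apply, mul_assoc, ← tr_rt hF.reg ι y (hF.comm v), ← mul_assoc, ← mul_assoc]
  congr 1
  ext1 ξ
  exact tr_comp _ _ _

end field

section coefficient

variable {Γ Λ G K : Type} [Group Γ] [Countable Γ] [Group Λ] [Group G] [TopologicalSpace G]
  [IsTopologicalGroup G] [MeasurableSpace G] [BorelSpace G] [NormedAddCommGroup K]
  [InnerProductSpace ℂ K] [CompleteSpace K] {ρ : Γ →* (K →L[ℂ] K)} {ω : K}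
  {μ : Measure G}

theorem hasSum_embg (b : HilbertBasis Γ ℂ K) (ξ : Lp K 2 μ) :
    HasSum (fun g => embg μ b g (coef μ b g ξ)) ξ := by
  classical
  obtain ⟨W, h1, h2⟩ := exists_osum (fun g => embg μ b g ∘L coef μ b g)
    (fun g h hgh ξ η => inner_embg g h hgh _ _) (fun ξ s => by
      refine (Finset.sum_le_sum fun g _ => ?_).trans (bessel μ b s ξ)
      have h3 : ‖(embg μ b g ∘L coef μ b g) ξ‖ ≤ ‖coef μ b g ξ‖ := norm_embg_le g _
      exact pow_le_pow_left₀ (norm_nonneg _) h3 2)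
  have h3 : W ξ = ξ := by
    refine ext_coef (b := b) fun g => ?_
    have h4 := (h1 ξ).mapL (coef μ b g)
    refine h4.unique ?_
    have h5 : (fun h => coef μ b g ((embg μ b h ∘L coef μ b h) ξ)) =
        fun h => if h = g then coef μ b g ξ else 0 := by
      funext h
      change coef μ b g (embg μ b h (coef μ b h ξ)) = _
      rw [coef_embg]
      by_cases hh : g = h
      · subst hh; simp
      · rw [if_neg hh, if_neg (Ne.symm hh)]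
    rw [h5]
    exact hasSum_ite_eq g _
  have h4 := h1 ξ
  rw [h3] at h4
  exact h4

theorem inner_embg_right (b : HilbertBasis Γ ℂ K) (g : Γ) (ξ : Lp K 2 μ) (f : Lp ℂ 2 μ) :
    ⟪ξ, embg μ b g f⟫_ℂ = ⟪coef μ b g ξ, f⟫_ℂ := by
  rw [L2.inner_def, L2.inner_def]
  refine integral_congr_ae ?_
  filter_upwards [embg_ae (b := b) g f, coef_ae μ b g ξ] with x h1 h2
  rw [h1, h2, inner_smul_right, ← inner_conj_symm (ξ x), RCLike.inner_apply]

/-- Parseval -/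
theorem hasSum_coef (b : HilbertBasis Γ ℂ K) (ξ η : Lp K 2 μ) :
    HasSum (fun g => ⟪coef μ b g ξ, coef μ b g η⟫_ℂ) ⟪ξ, η⟫_ℂ := by
  have h1 := (hasSum_embg b η).mapL (innerSL ℂ ξ)
  simp only [innerSL_apply_apply, inner_embg_right] at h1
  exact h1

theorem coef_isl (b : HilbertBasis Γ ℂ K) (g : Γ) {U : Set G} (hU : MeasurableSet U)
    (hμU : μ U ≠ ∞) (k : K) :
    coef μ b g (isl U hU hμU k) = ⟪b g, k⟫_ℂ • isl (K := ℂ) U hU hμU 1 := by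
  refine Lp.ext ?_
  filter_upwards [coef_ae μ b g (isl U hU hμU k),
    indicatorConstLp_coeFn (p := 2) (hs := hU) (hμs := hμU) (c := k),
    Lp.coeFn_smul ⟪b g, k⟫_ℂ (isl (K := ℂ) (μ := μ) U hU hμU 1),
    indicatorConstLp_coeFn (p := 2) (hs := hU) (hμs := hμU) (c := (1 : ℂ))] with x h1 h2 h3 h4
  rw [h1, h3, Pi.smul_apply, isl_apply, isl_apply, h2, h4]
  by_cases hx : x ∈ U <;> simp [hx]

variable [μ.IsMulLeftInvariant]

theorem fw_isl (h : RegRep ρ ω) (ι : Γ →* G) {U : Set G} (hU : MeasurableSet U)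
    (hμU : μ U ≠ ∞) : fw h ι μ (isl U hU hμU ω) = isl U hU hμU ω := by
  refine ext_coef (b := h.basis) fun g => ?_
  rw [coef_fw, coef_isl, h.basis_apply]
  by_cases hg : g = 1
  · rw [hg, map_one, map_one, inv_one, tl_one]
  · have h1 : ⟪ρ g ω, ω⟫_ℂ = 0 := by rw [← inner_conj_symm, h.inner_zero g hg, map_zero]
    rw [h1, zero_smul, map_zero]

theorem rt_isl (h : RegRep ρ ω) (ι : Γ →* G) {A : K →L[ℂ] K} (hA : Cmm ρ A) {U : Set G}
    (hU : MeasurableSet U) (hμU : μ U ≠ ∞) :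
    rt h ι μ A (isl U hU hμU ω) = adjoint (fw h ι μ) (isl U hU hμU (adjoint A ω)) := by
  change adjoint (fw h ι μ) ((jop h A).compLpL 2 μ (fw h ι μ (isl U hU hμU ω))) = _
  rw [fw_isl, comp_isl, jop_omega h hA]

/-- `μ (U ∩ y U)` -/
noncomputable def wt (μ : Measure G) (U : Set G) (y : G) : ℝ :=
  μ.real (U ∩ (fun x => y⁻¹ * x) ⁻¹' U)

theorem inner_tl_isl {U : Set G} (hU : MeasurableSet U) (hμU : μ U ≠ ∞) (y : G) :
    ⟪tl μ y (isl (K := ℂ) (μ := μ) U hU hμU 1), isl (K := ℂ) (μ := μ) U hU hμU 1⟫_ℂ =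
      (wt μ U y : ℂ) := by
  have hm : MeasurableSet ((fun x => y⁻¹ * x) ⁻¹' U) := (measurable_const_mul y⁻¹) hU
  rw [L2.inner_def, wt]
  have h1 : (fun x => ⟪(tl μ y (isl (K := ℂ) (μ := μ) U hU hμU 1)) x,
      (isl (K := ℂ) (μ := μ) U hU hμU 1) x⟫_ℂ) =ᵐ[μ]
      (U ∩ (fun x => y⁻¹ * x) ⁻¹' U).indicator fun _ => (1 : ℂ) := by
    filter_upwards [tl_ae μ y (isl (K := ℂ) (μ := μ) U hU hμU 1),
      indicatorConstLp_coeFn (p := 2) (hs := hU) (hμs := hμU) (c := (1 : ℂ)),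
      (measurePreserving_mul_left μ y⁻¹).quasiMeasurePreserving.ae
        (indicatorConstLp_coeFn (p := 2) (hs := hU) (hμs := hμU) (c := (1 : ℂ)))] with x h1 h2 h3
    rw [h1, isl_apply, h2, h3]
    by_cases hx : x ∈ U <;> by_cases hy : y⁻¹ * x ∈ U <;> simp [hx, hy]
  rw [integral_congr_ae h1, integral_indicator (hU.inter hm), setIntegral_const, Complex.real_smul,
    mul_one]

theorem wt_nonneg (U : Set G) (y : G) : 0 ≤ wt μ U y := measureReal_nonneg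

theorem wt_le {U : Set G} (hμU : μ U ≠ ∞) (y : G) : wt μ U y ≤ μ.real U :=
  measureReal_mono Set.inter_subset_left hμU

theorem wt_inv {U : Set G} (hU : MeasurableSet U) (y : G) : wt μ U y⁻¹ = wt μ U y := by
  rw [wt, wt, inv_inv]
  have h1 := (measurePreserving_mul_left μ y⁻¹).measureReal_preimage
    (s := U ∩ (fun x => y * x) ⁻¹' U)
    ((hU.inter ((measurable_const_mul y) hU)).nullMeasurableSet)
  rw [← h1]
  congr 1
  ext x
  simp only [Set.mem_preimage, Set.mem_inter_iff, mul_inv_cancel_left]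
  exact and_comm

variable {V : Λ →* (K →L[ℂ] K)}

/-- **The coefficient of the conjugation representation at `1_U ω`.** -/
theorem cjr_coeff (hF : Frm ρ V ω) (ι : Γ →* G) {U : Set G} (hU : MeasurableSet U)
    (hμU : μ U ≠ ∞) (v : Λ) :
    HasSum (fun g => ((‖⟪ρ g ω, V v ω⟫_ℂ‖ ^ 2 * wt μ U (ι g) : ℝ) : ℂ))
      ⟪cjr hF ι μ v (isl U hU hμU ω), isl U hU hμU ω⟫_ℂ := by
  have e1 : ⟪cjr hF ι μ v (isl U hU hμU ω), isl U hU hμU ω⟫_ℂ =
      ⟪rt hF.reg ι μ (V v) (isl U hU hμU ω), isl U hU hμU (V v⁻¹ ω)⟫_ℂ := by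
    change ⟪(V v).compLpL 2 μ (rt hF.reg ι μ (V v) (isl U hU hμU ω)), isl U hU hμU ω⟫_ℂ = _
    rw [← adjoint_inner_right, comp_adjoint, hF.adj, comp_isl]
  have h1 := hasSum_coef hF.reg.basis (rt hF.reg ι μ (V v) (isl U hU hμU ω))
    (isl U hU hμU (V v⁻¹ ω))
  rw [← e1] at h1
  rw [← (Equiv.inv Γ).hasSum_iff] at h1
  have e2 : ((fun g => ⟪coef μ hF.reg.basis g (rt hF.reg ι μ (V v) (isl U hU hμU ω)),
      coef μ hF.reg.basis g (isl U hU hμU (V v⁻¹ ω))⟫_ℂ) ∘ (Equiv.inv Γ)) =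
      fun g => ((‖⟪ρ g ω, V v ω⟫_ℂ‖ ^ 2 * wt μ U (ι g) : ℝ) : ℂ) := by
    funext g
    have e3 : ⟪ρ g⁻¹ ω, V v⁻¹ ω⟫_ℂ = (starRingEnd ℂ) ⟪ρ g ω, V v ω⟫_ℂ := by
      rw [← hF.adj, adjoint_inner_right, (hF.comm v).apply, hF.reg.inner_left, inv_inv,
        inner_conj_symm]
    change ⟪coef μ hF.reg.basis g⁻¹ (rt hF.reg ι μ (V v) (isl U hU hμU ω)),
      coef μ hF.reg.basis g⁻¹ (isl U hU hμU (V v⁻¹ ω))⟫_ℂ = _
    rw [rt_isl hF.reg ι (hF.comm v), hF.adj, coef_adj_fw, coef_isl, hF.reg.basis_apply, e3,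
      map_smul, inner_smul_left, inner_smul_right, inner_tl_isl, map_inv, wt_inv hU,
      Complex.conj_conj, ← mul_assoc, Complex.mul_conj, Complex.normSq_eq_norm_sq]
    push_cast
    ring
  rw [e2] at h1
  exact h1

theorem cjr_coeff_tsum (hF : Frm ρ V ω) (ι : Γ →* G) {U : Set G} (hU : MeasurableSet U)
    (hμU : μ U ≠ ∞) (v : Λ) :
    ⟪cjr hF ι μ v (isl U hU hμU ω), isl U hU hμU ω⟫_ℂ =
      ((∑' g, ‖⟪ρ g ω, V v ω⟫_ℂ‖ ^ 2 * wt μ U (ι g) : ℝ) : ℂ) := by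
  rw [← (cjr_coeff hF ι hU hμU v).tsum_eq, Complex.ofReal_tsum]

end coefficient

section window

variable {G : Type} [Group G] [TopologicalSpace G] [IsTopologicalGroup G] [MeasurableSpace G]
  [BorelSpace G] {μ : Measure G} [μ.IsMulLeftInvariant]

/-- A window with weights bounded below on a compact set. -/
theorem exists_window [LocallyCompactSpace G] [T2Space G] [IsFiniteMeasureOnCompacts μ]
    [μ.IsOpenPosMeasure] {Q : Set G} (hQ : IsCompact Q) :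
    ∃ (U : Set G) (c : ℝ), IsCompact U ∧ MeasurableSet U ∧ μ U ≠ ∞ ∧ 0 < c ∧
      ∀ y ∈ Q, c ≤ wt μ U y := by
  obtain ⟨U0, hU0, hU1⟩ := exists_compact_mem_nhds (1 : G)
  have hc : IsCompact (U0 ∪ Q * U0) := hU0.union (hQ.mul hU0)
  refine ⟨U0 ∪ Q * U0, μ.real U0, hc, hc.measurableSet, hc.measure_lt_top.ne, ?_, fun y hy => ?_⟩
  · rw [measureReal_def]
    exact ENNReal.toReal_pos (Measure.measure_pos_of_mem_nhds μ hU1).ne' hU0.measure_lt_top.ne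
  · have h1 := (measurePreserving_mul_left μ y⁻¹).measureReal_preimage (s := U0)
      hU0.measurableSet.nullMeasurableSet
    rw [wt, ← h1]
    refine measureReal_mono ?_ (ne_top_of_le_ne_top hc.measure_lt_top.ne
      (measure_mono Set.inter_subset_left))
    intro x hx
    refine ⟨Or.inr ⟨y, hy, y⁻¹ * x, hx, by simp⟩, Or.inl hx⟩

end window

end Vale.Agent.P092.H132
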