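import Mathlib
import Vale.Agent.P092.H132.T1

/-!
P092 (helper132): asymptotic right invariance of `N`, `N*` and exact left equivariance.
-/

namespace Vale.Agent.P092.H132

open Vale.Agent.P092.H553 Matrix



/-- The cross product of two vectors. -/
def cr (u v : Fin 3 → ℝ) : Fin 3 → ℝ :=
  ![u 1 * v 2 - u 2 * v 1, u 2 * v 0 - u 0 * v 2, u 0 * v 1 - u 1 * v 0]

lemma cr_lagrange (u v : Fin 3 → ℝ) :
    (∑ a, u a ^ 2) * (∑ a, v a ^ 2) - (∑ a, u a * v a) ^ 2 = ∑ a, cr u v a ^ 2 := by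
  simp only [cr, Fin.sum_univ_three, Matrix.cons_val_zero, Matrix.cons_val_one, Matrix.cons_val]
  ring

lemma cr_sum (u : Fin 3 → ℝ) (K : M3) (t : Fin 3 → ℝ) (a : Fin 3) :
    cr u (fun b => ∑ l, t l * K l b) a = ∑ l, t l * cr u (K l) a := by
  fin_cases a <;>
  · simp only [cr, Fin.sum_univ_three, Matrix.cons_val_zero, Matrix.cons_val_one, Matrix.cons_val,
      Fin.mk_one, Fin.zero_eta, Fin.reduceFinMk]
    ring

lemma sum_cr (K : M3) : ∑ i, ∑ l, ∑ a, cr (K i) (K l) a ^ 2 = 2 * hs K.adjugate := by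
  rw [Matrix.adjugate_fin_three]
  simp only [cr, hs, Fin.sum_univ_three, Matrix.of_apply, Matrix.cons_val', Matrix.cons_val_zero,
    Matrix.cons_val_one, Matrix.cons_val_two, Matrix.head_cons, Matrix.tail_cons,
    Matrix.cons_val_fin_one, Matrix.empty_val', Matrix.head_fin_const, Matrix.cons_val]
  ring

lemma lagrange_le (K T : M3) :
    hs K * hs (T * K) - hs (K * (T * K)ᵀ) ≤ hs T * (2 * hs K.adjugate) := by
  have h1 : hs K * hs (T * K) - hs (K * (T * K)ᵀ) =
      ∑ i, ∑ j, ∑ a, cr (K i) ((T * K) j) a ^ 2 := by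
    have e1 : hs K * hs (T * K) = ∑ i, ∑ j, (∑ a, K i a ^ 2) * (∑ a, (T * K) j a ^ 2) := by
      simp only [hs]
      rw [Finset.sum_mul]
      exact Finset.sum_congr rfl fun i _ => Finset.mul_sum _ _ _
    have e2 : hs (K * (T * K)ᵀ) = ∑ i, ∑ j, (∑ a, K i a * (T * K) j a) ^ 2 := by
      refine Finset.sum_congr rfl fun i _ => Finset.sum_congr rfl fun j _ => ?_
      rw [Matrix.mul_apply]; rfl
    rw [e1, e2, ← Finset.sum_sub_distrib]
    refine Finset.sum_congr rfl fun i _ => ?_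
    rw [← Finset.sum_sub_distrib]
    exact Finset.sum_congr rfl fun j _ => cr_lagrange _ _
  rw [h1]
  have h2 : ∀ i j a, cr (K i) ((T * K) j) a ^ 2 ≤
      (∑ l, T j l ^ 2) * (∑ l, cr (K i) (K l) a ^ 2) := by
    intro i j a
    have e : (T * K) j = fun b => ∑ l, T j l * K l b := by
      funext b; rw [Matrix.mul_apply]
    rw [e, cr_sum]
    exact Finset.sum_mul_sq_le_sq_mul_sq _ _ _
  calc ∑ i, ∑ j, ∑ a, cr (K i) ((T * K) j) a ^ 2
      ≤ ∑ i, ∑ j, ∑ a, (∑ l, T j l ^ 2) * (∑ l, cr (K i) (K l) a ^ 2) :=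
        Finset.sum_le_sum fun i _ => Finset.sum_le_sum fun j _ => Finset.sum_le_sum fun a _ =>
          h2 i j a
    _ = hs T * (∑ i, ∑ l, ∑ a, cr (K i) (K l) a ^ 2) := by
        simp only [hs, Fin.sum_univ_three]
        ring
    _ = hs T * (2 * hs K.adjugate) := by rw [sum_cr]

lemma hs_adj_rm_inv (g : G3) : hs (rm g⁻¹).adjugate = rA g := by
  rw [← rm_inv, inv_inv, rA]

/-- Right invariance of `N*`. -/
theorem hs_NS_sub_mul_le (g t : G3) :
    hs (NS g - NS (g * t)) ≤ 4 * (rA t * rB t) / G23 g := by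
  have hB := rB_pos g
  have hBt := rB_pos (g * t)
  have hA := rA_pos g
  have hAt := rA_pos t
  have hBt' := rB_pos t
  have h1 := lagrange_le (rm g⁻¹) (rm t⁻¹)
  have e1 : rm t⁻¹ * rm g⁻¹ = rm (g * t)⁻¹ := by rw [← rm_mul, _root_.mul_inv_rev]
  rw [e1, hs_adj_rm_inv] at h1
  have e2 : hs (rm g⁻¹) = rB g := rfl
  have e3 : hs (rm (g * t)⁻¹) = rB (g * t) := rfl
  have e4 : hs (rm t⁻¹) = rB t := rfl
  rw [e2, e3, e4] at h1
  -- the scalar product
  have e5 : ∑ i, ∑ j, NS g i j * NS (g * t) i j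
      = hs (rm g⁻¹ * (rm (g * t)⁻¹)ᵀ) / (rB g * rB (g * t)) := by
    have := ip_NS (g * t) (rm g⁻¹)
    rw [← div_div, div_right_comm, ← this, Finset.sum_div]
    refine Finset.sum_congr rfl fun i _ => ?_
    rw [Finset.sum_div]
    refine Finset.sum_congr rfl fun j _ => ?_
    have e6 : NS g i j = (rB g)⁻¹ * ((rm g⁻¹)ᵀ * rm g⁻¹) i j := by
      simp only [NS, Matrix.smul_apply, smul_eq_mul]
    rw [e6, div_eq_inv_mul]; ring
  have h2 : 1 - ∑ i, ∑ j, NS g i j * NS (g * t) i j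
      ≤ 2 * (rB t * rA g) / (rB g * rB (g * t)) := by
    rw [e5, le_div_iff₀ (by positivity), sub_mul, div_mul_cancel₀ _ (by positivity)]
    linarith
  -- `B(g) ≤ A(t) B(gt)`
  have h3 : rB g ≤ rA t * rB (g * t) := by
    have := rA_mul_le t (g * t)⁻¹
    rw [rA_inv] at this
    have e7 : t * (g * t)⁻¹ = g⁻¹ := by group
    rwa [e7, rA_inv] at this
  have h4 : 2 * (rB t * rA g) / (rB g * rB (g * t)) ≤ 2 * (rA t * rB t) / G23 g := by
    have hG : 0 < G23 g := by linarith [G23_ge g]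
    rw [div_le_div_iff₀ (by positivity) hG, G23]
    calc 2 * (rB t * rA g) * (rB g ^ 2 / rA g) = 2 * rB t * rB g * rB g := by
          field_simp
      _ ≤ 2 * rB t * rB g * (rA t * rB (g * t)) :=
          mul_le_mul_of_nonneg_left h3 (by positivity)
      _ = _ := by ring
  have h5 := hs_sub (NS g) (NS (g * t))
  have h6 := hs_NS_le g
  have h7 := hs_NS_le (g * t)
  have h8 : 4 * (rA t * rB t) / G23 g = 2 * (2 * (rA t * rB t) / G23 g) := by ring
  rw [h8]
  linarith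

/-- The Cartan involution `g ↦ g⁻ᵀ` of `SL_3(ℤ)`. -/
noncomputable def cart (g : G3) : G3 := (g.transpose)⁻¹

lemma rm_transpose (g : G3) : rm g.transpose = (rm g)ᵀ := by
  ext i j; simp [rm, en, Matrix.SpecialLinearGroup.transpose]

lemma cart_inv (g : G3) : (cart g)⁻¹ = g.transpose := by simp [cart]

lemma transpose_inv (g : G3) : (g⁻¹).transpose = (g.transpose)⁻¹ := by
  rw [eq_comm, inv_eq_iff_mul_eq_one]
  ext i j
  have h : ((g⁻¹ * g : G3) : Matrix (Fin 3) (Fin 3) ℤ)ᵀ = 1 := by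
    rw [inv_mul_cancel]; simp
  rw [Matrix.SpecialLinearGroup.coe_mul, Matrix.transpose_mul] at h
  have h2 : ((g.transpose * (g⁻¹).transpose : G3) : Matrix (Fin 3) (Fin 3) ℤ) = 1 := by
    rw [Matrix.SpecialLinearGroup.coe_mul]; exact h
  rw [h2]; rfl

lemma cart_mul (g h : G3) : cart (g * h) = cart g * cart h := by
  have h1 : (g * h).transpose = h.transpose * g.transpose := by
    ext i j
    have : ((g * h).transpose : Matrix (Fin 3) (Fin 3) ℤ)
        = (h.transpose : Matrix (Fin 3) (Fin 3) ℤ) * (g.transpose : Matrix (Fin 3) (Fin 3) ℤ) := by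
      show ((g * h : G3) : Matrix (Fin 3) (Fin 3) ℤ)ᵀ = _
      rw [Matrix.SpecialLinearGroup.coe_mul, Matrix.transpose_mul]; rfl
    rw [this, ← Matrix.SpecialLinearGroup.coe_mul]
  simp only [cart, h1, _root_.mul_inv_rev]

lemma rA_cart (g : G3) : rA (cart g) = rB g := by
  rw [← rB_inv, cart_inv, rB, ← transpose_inv, rm_transpose, hs_transpose]; rfl

lemma rB_cart (g : G3) : rB (cart g) = rA g := by
  rw [← rA_inv, cart_inv, rA, rm_transpose, hs_transpose]; rfl

lemma NS_cart (g : G3) : NS (cart g) = NN g := by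
  rw [NS, NN, rB_cart, cart_inv, rm_transpose, Matrix.transpose_transpose]

lemma NN_cart (g : G3) : NN (cart g) = NS g := by
  have h : rm (cart g) = (rm g⁻¹)ᵀ := by
    rw [cart, ← transpose_inv, rm_transpose]
  rw [NS, NN, rA_cart, h, Matrix.transpose_transpose]

lemma G23_cart (g : G3) : G23 (cart g) = G12 g := by rw [G23, G12, rA_cart, rB_cart]

lemma G12_cart (g : G3) : G12 (cart g) = G23 g := by rw [G23, G12, rA_cart, rB_cart]

/-- Right invariance of `N`. -/
theorem hs_NN_sub_mul_le (g t : G3) :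
    hs (NN g - NN (g * t)) ≤ 4 * (rA t * rB t) / G12 g := by
  have := hs_NS_sub_mul_le (cart g) (cart t)
  rwa [← cart_mul, NS_cart, NS_cart, rA_cart, rB_cart, G23_cart, mul_comm (rB t)] at this

/-- Left equivariance of `N*`. -/
theorem NS_mul (s g : G3) :
    NS (s * g) = (rB g / rB (s * g)) • ((rm s⁻¹)ᵀ * NS g * rm s⁻¹) := by
  have hB := rB_pos g
  have e : rm (s * g)⁻¹ = rm g⁻¹ * rm s⁻¹ := by rw [_root_.mul_inv_rev, rm_mul]
  rw [NS, NS, e, Matrix.transpose_mul, Matrix.mul_smul, Matrix.smul_mul, smul_smul]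
  have h1 : rB g / rB (s * g) * (rB g)⁻¹ = (rB (s * g))⁻¹ := by field_simp
  rw [h1]
  simp only [Matrix.mul_assoc]

/-- Left equivariance of `N`. -/
theorem NN_mul (s g : G3) :
    NN (s * g) = (rA g / rA (s * g)) • (rm s * NN g * (rm s)ᵀ) := by
  have hA := rA_pos g
  rw [NN, NN, rm_mul, Matrix.transpose_mul, Matrix.mul_smul, Matrix.smul_mul, smul_smul]
  have h1 : rA g / rA (s * g) * (rA g)⁻¹ = (rA (s * g))⁻¹ := by field_simp
  rw [h1]
  simp only [Matrix.mul_assoc]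

end Vale.Agent.P092.H132
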