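import Mathlib
import Vale.Agent.P092.H132.Right
import Vale.Agent.P092.H175.FF

/-!
P092 (helper132): block [R] of T2: asymptotic right invariance of helper175's `ff`.
-/

namespace Vale.Agent.P092.H132

open Vale.Agent.P092.H553 Matrix
open Vale.Agent.P092.H175 (ff)



/-- `tr(bᵀ X b)`. -/
def qf (X : M3) (b : G3) : ℝ := ∑ i, ∑ j, X i j * (rm b * (rm b)ᵀ) i j

lemma qf_NS (g b : G3) : qf (NS g) b = rA (g⁻¹ * b) / rB g := by
  have h := ip_NS g (rm b)ᵀ
  rw [Matrix.transpose_transpose] at h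
  rw [qf, h, rA, rm_mul, ← hs_transpose, Matrix.transpose_mul, Matrix.transpose_transpose,
    Matrix.transpose_transpose]

lemma qf_NN (g b : G3) : qf (NN g) b = hs ((rm g)ᵀ * rm b) / rA g := by
  have h := ip_NS (cart g) (rm b)ᵀ
  rw [Matrix.transpose_transpose, NS_cart, rB_cart, cart_inv, rm_transpose,
    Matrix.transpose_transpose] at h
  rw [qf, h, ← hs_transpose, Matrix.transpose_mul, Matrix.transpose_transpose]

lemma qf_sub (X Y : M3) (b : G3) : qf X b - qf Y b = qf (X - Y) b := by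
  simp only [qf, Matrix.sub_apply, ← Finset.sum_sub_distrib, sub_mul]

lemma abs_ip_le (X Y : M3) : |∑ i, ∑ j, X i j * Y i j| ≤ Real.sqrt (hs X) * Real.sqrt (hs Y) := by
  have h1 : (∑ i, ∑ j, X i j * Y i j) ^ 2 ≤ hs X * hs Y := by
    have e1 : ∑ i, ∑ j, X i j * Y i j = ∑ p : Fin 3 × Fin 3, X p.1 p.2 * Y p.1 p.2 := by
      rw [Fintype.sum_prod_type]
    have e2 : hs X = ∑ p : Fin 3 × Fin 3, X p.1 p.2 ^ 2 := by rw [hs, Fintype.sum_prod_type]
    have e3 : hs Y = ∑ p : Fin 3 × Fin 3, Y p.1 p.2 ^ 2 := by rw [hs, Fintype.sum_prod_type]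
    rw [e1, e2, e3]
    exact Finset.sum_mul_sq_le_sq_mul_sq _ _ _
  rw [← Real.sqrt_mul (hs_nonneg X)]
  exact Real.abs_le_sqrt h1

lemma abs_qf_le (X : M3) (b : G3) : |qf X b| ≤ Real.sqrt (hs X) * rA b := by
  have h1 := abs_ip_le X (rm b * (rm b)ᵀ)
  have h2 : Real.sqrt (hs (rm b * (rm b)ᵀ)) ≤ rA b := by
    have h3 := hs_gram_le (rm b)ᵀ
    rw [Matrix.transpose_transpose, hs_transpose] at h3
    calc Real.sqrt (hs (rm b * (rm b)ᵀ)) ≤ Real.sqrt (rA b ^ 2) := Real.sqrt_le_sqrt h3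
      _ = rA b := Real.sqrt_sq (rA_pos b).le
  exact h1.trans (mul_le_mul_of_nonneg_left h2 (Real.sqrt_nonneg _))

lemma qf_NS_nonneg (g b : G3) : 0 ≤ qf (NS g) b := by
  rw [qf_NS]; exact div_nonneg (rA_pos _).le (rB_pos _).le

lemma qf_NN_le (g b : G3) : qf (NN g) b ≤ rA b := by
  rw [qf_NN, div_le_iff₀ (rA_pos g)]
  have := hs_mul_le (rm g)ᵀ (rm b)
  rw [hs_transpose, mul_comm] at this
  exact this

lemma ff_eq (t1 t2 : ℝ) (g b : G3) : ff t1 t2 g b =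
    qf (NS g) b + Real.exp (-t2) * (rA b - qf (NN g) b) + Real.exp (-t1 - t2) * rA b := by
  rw [ff, qf_NS, qf_NN]

lemma ff_ge (t1 t2 : ℝ) (g b : G3) : Real.exp (-t1 - t2) * rA b ≤ ff t1 t2 g b := by
  rw [ff_eq]
  have h1 := qf_NS_nonneg g b
  have h2 : 0 ≤ Real.exp (-t2) * (rA b - qf (NN g) b) :=
    mul_nonneg (Real.exp_pos _).le (by linarith [qf_NN_le g b])
  linarith

lemma ff_pos (t1 t2 : ℝ) (g b : G3) : 0 < ff t1 t2 g b :=
  lt_of_lt_of_le (mul_pos (Real.exp_pos _) (rA_pos b)) (ff_ge t1 t2 g b)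

lemma rA_le_ff (t1 t2 : ℝ) (g b : G3) : rA b ≤ Real.exp (t1 + t2) * ff t1 t2 g b := by
  have h := mul_le_mul_of_nonneg_left (ff_ge t1 t2 g b) (Real.exp_pos (t1 + t2)).le
  rwa [← mul_assoc, ← Real.exp_add, show t1 + t2 + (-t1 - t2) = 0 by ring, Real.exp_zero,
    one_mul] at h

theorem right_est (t g b : G3) (t1 t2 : ℝ) (_ht1 : 0 ≤ t1) (ht2 : 0 ≤ t2) :
    |ff t1 t2 (g * t) b - ff t1 t2 g b| ≤
      Real.exp (t1 + t2) * (Real.sqrt (hs (NS (g * t) - NS g)) +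
        Real.sqrt (hs (NN (g * t) - NN g))) * ff t1 t2 g b := by
  have e : ff t1 t2 (g * t) b - ff t1 t2 g b =
      qf (NS (g * t) - NS g) b - Real.exp (-t2) * qf (NN (g * t) - NN g) b := by
    rw [ff_eq, ff_eq, ← qf_sub, ← qf_sub]; ring
  have h1 := abs_qf_le (NS (g * t) - NS g) b
  have h2 := abs_qf_le (NN (g * t) - NN g) b
  have h3 : Real.exp (-t2) ≤ 1 := Real.exp_le_one_iff.2 (by linarith)
  have h4 : |Real.exp (-t2) * qf (NN (g * t) - NN g) b| ≤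
      Real.sqrt (hs (NN (g * t) - NN g)) * rA b := by
    rw [abs_mul, abs_of_pos (Real.exp_pos _)]
    calc Real.exp (-t2) * |qf (NN (g * t) - NN g) b| ≤ 1 * |qf (NN (g * t) - NN g) b| :=
          mul_le_mul_of_nonneg_right h3 (abs_nonneg _)
      _ ≤ _ := by rw [one_mul]; exact h2
  rw [e]
  calc |qf (NS (g * t) - NS g) b - Real.exp (-t2) * qf (NN (g * t) - NN g) b|
      ≤ |qf (NS (g * t) - NS g) b| + |Real.exp (-t2) * qf (NN (g * t) - NN g) b| := abs_sub _ _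
    _ ≤ Real.sqrt (hs (NS (g * t) - NS g)) * rA b + Real.sqrt (hs (NN (g * t) - NN g)) * rA b :=
        add_le_add h1 h4
    _ = (Real.sqrt (hs (NS (g * t) - NS g)) + Real.sqrt (hs (NN (g * t) - NN g))) * rA b := by
        ring
    _ ≤ (Real.sqrt (hs (NS (g * t) - NS g)) + Real.sqrt (hs (NN (g * t) - NN g))) *
          (Real.exp (t1 + t2) * ff t1 t2 g b) :=
        mul_le_mul_of_nonneg_left (rA_le_ff t1 t2 g b) (by positivity)
    _ = _ := by ring

lemma hs_sub_comm (X Y : M3) : hs (X - Y) = hs (Y - X) := by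
  simp only [hs, Matrix.sub_apply]
  exact Finset.sum_congr rfl fun i _ => Finset.sum_congr rfl fun j _ => by ring

theorem right_final (t : G3) (T : ℝ) {η : ℝ} (hη : 0 < η) : ∃ R' : ℝ, 0 < R' ∧
    ∀ g : G3, Reg R' g → ∀ b : G3, ∀ t1 t2 : ℝ, 0 ≤ t1 → t1 ≤ T → 0 ≤ t2 → t2 ≤ T →
      |ff t1 t2 (g * t) b - ff t1 t2 g b| ≤ η * ff t1 t2 g b := by
  set C := 4 * (rA t * rB t) with hC
  have hCpos : 0 < C := by
    have := rA_pos t
    have := rB_pos t
    positivity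
  set ε := η / (2 * Real.exp (2 * T)) with hε
  have hεpos : 0 < ε := by positivity
  refine ⟨C / ε ^ 2, by positivity, ?_⟩
  intro g hg b t1 t2 h1 h1T h2 h2T
  have a1 : Real.sqrt (hs (NS (g * t) - NS g)) ≤ ε := by
    rw [hs_sub_comm]
    apply Real.sqrt_le_iff.2 ⟨hεpos.le, ?_⟩
    refine (hs_NS_sub_mul_le g t).trans ?_
    have hG : 0 < G23 g := by linarith [G23_ge g]
    rw [div_le_iff₀ hG]
    have := hg.2
    rw [div_le_iff₀ (by positivity)] at this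
    linarith
  have a2 : Real.sqrt (hs (NN (g * t) - NN g)) ≤ ε := by
    rw [hs_sub_comm]
    apply Real.sqrt_le_iff.2 ⟨hεpos.le, ?_⟩
    refine (hs_NN_sub_mul_le g t).trans ?_
    have hG : 0 < G12 g := by linarith [G12_ge g]
    rw [div_le_iff₀ hG]
    have := hg.1
    rw [div_le_iff₀ (by positivity)] at this
    linarith
  refine (right_est t g b t1 t2 h1 h2).trans ?_
  apply mul_le_mul_of_nonneg_right _ (ff_pos t1 t2 g b).le
  calc Real.exp (t1 + t2) * (Real.sqrt (hs (NS (g * t) - NS g)) +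
        Real.sqrt (hs (NN (g * t) - NN g)))
      ≤ Real.exp (2 * T) * (ε + ε) := by
        apply mul_le_mul (Real.exp_le_exp.2 (by linarith)) (add_le_add a1 a2) (by positivity)
          (Real.exp_pos _).le
    _ = η := by rw [hε]; field_simp; ring

/-! ### Block [Bd] -/

lemma qf_NS_le (g b : G3) : qf (NS g) b ≤ rA b := by
  rw [qf_NS, div_le_iff₀ (rB_pos g)]
  have := rA_mul_le g⁻¹ b
  rwa [rA_inv, mul_comm] at this

lemma qf_NN_nonneg (g b : G3) : 0 ≤ qf (NN g) b := by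
  rw [qf_NN]; exact div_nonneg (hs_nonneg _) (rA_pos _).le

lemma ff_le (t1 t2 : ℝ) (g b : G3) (h1 : 0 ≤ t1) (h2 : 0 ≤ t2) :
    ff t1 t2 g b ≤ 3 * rA b := by
  rw [ff_eq]
  have hA := rA_pos b
  have a1 := qf_NS_le g b
  have a2 := qf_NN_nonneg g b
  have a3 := qf_NN_le g b
  have e1 : Real.exp (-t2) ≤ 1 := Real.exp_le_one_iff.2 (by linarith)
  have e2 : Real.exp (-t1 - t2) ≤ 1 := Real.exp_le_one_iff.2 (by linarith)
  have b1 : Real.exp (-t2) * (rA b - qf (NN g) b) ≤ 1 * (rA b - qf (NN g) b) :=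
    mul_le_mul_of_nonneg_right e1 (by linarith)
  have b2 : Real.exp (-t1 - t2) * rA b ≤ 1 * rA b := mul_le_mul_of_nonneg_right e2 hA.le
  linarith

theorem ff_bounds (t1 t2 : ℝ) (g b : G3) (h1 : 0 ≤ t1) (h2 : 0 ≤ t2) :
    Real.exp (-t1 - t2) * rA b ≤ ff t1 t2 g b ∧ ff t1 t2 g b ≤ 3 * rA b :=
  ⟨ff_ge t1 t2 g b, ff_le t1 t2 g b h1 h2⟩

theorem ff_shift (t1 t2 d1 d2 : ℝ) (g b : G3) :
    ff (t1 + d1) (t2 + d2) g b ≤ Real.exp (|d1| + |d2|) * ff t1 t2 g b := by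
  rw [ff_eq, ff_eq]
  have hA := rA_pos b
  have a1 := qf_NS_nonneg g b
  have a3 := qf_NN_le g b
  have c1 : -d1 ≤ |d1| := neg_le_abs d1
  have c2 : -d2 ≤ |d2| := neg_le_abs d2
  have c3 : 0 ≤ |d1| := abs_nonneg d1
  have c4 : 0 ≤ |d2| := abs_nonneg d2
  have e0 : 1 ≤ Real.exp (|d1| + |d2|) := Real.one_le_exp (by linarith)
  have b0 : qf (NS g) b ≤ Real.exp (|d1| + |d2|) * qf (NS g) b := by
    calc qf (NS g) b = 1 * qf (NS g) b := (one_mul _).symm
      _ ≤ _ := mul_le_mul_of_nonneg_right e0 a1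
  have b1 : Real.exp (-(t2 + d2)) * (rA b - qf (NN g) b) ≤
      Real.exp (|d1| + |d2|) * (Real.exp (-t2) * (rA b - qf (NN g) b)) := by
    rw [← mul_assoc, ← Real.exp_add]
    exact mul_le_mul_of_nonneg_right (Real.exp_le_exp.2 (by linarith)) (by linarith)
  have b2 : Real.exp (-(t1 + d1) - (t2 + d2)) * rA b ≤
      Real.exp (|d1| + |d2|) * (Real.exp (-t1 - t2) * rA b) := by
    rw [← mul_assoc, ← Real.exp_add]
    exact mul_le_mul_of_nonneg_right (Real.exp_le_exp.2 (by linarith)) hA.le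
  rw [mul_add, mul_add]
  linarith

/-- `3 ≤ |b|²`. -/
theorem three_le_rA (b : G3) : 3 ≤ rA b := by
  -- AM-GM through integrality: `3 B ≤ A²` and `3 A ≤ B²`
  have h1 := three_rB_le b
  have h2 := three_rB_le b⁻¹
  rw [rB_inv, rA_inv] at h2
  have hA := rA_pos b
  have hB := rB_pos b
  by_contra hlt
  push Not at hlt
  have h3 : rB b < rA b := by nlinarith
  have h4 : rB b < 3 := by linarith
  nlinarith

theorem one_le_rA (b : G3) : 1 ≤ rA b := by linarith [three_le_rA b]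

end Vale.Agent.P092.H132
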