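import Vale.Agent.P092.H432.EFam
import Vale.Agent.P092.H132.TRep

/-!
P092 (helper132), block [EX]: regularisation of an additive covariant family of positive operators
to one with total mass the support projection (abstract form of helper432's `exists_efam`).
-/

set_option linter.all false

open scoped InnerProductSpace ComplexOrder
open Filter Topology ContinuousLinearMap

namespace Vale.Agent.P092.H132

open Vale.Agent.P092.H160 Vale.Agent.P092.H553 Vale.Agent.P092.H432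

theorem exists_regfam {H D Y : Type} [Group D] [MulAction D Y] [NormedAddCommGroup H]
    [InnerProductSpace ℂ H] [CompleteSpace H] {R : D → (H →L[ℂ] H)}
    (hmul : ∀ v w, R (v * w) = R v * R w) (hadj : ∀ v, adjoint (R v) = R v⁻¹)
    {Ms : Set (Set Y)} (hMu : Set.univ ∈ Ms) (hMc : ∀ A ∈ Ms, Aᶜ ∈ Ms)
    (hMg : ∀ A ∈ Ms, ∀ v : D, {x | v⁻¹ • x ∈ A} ∈ Ms)
    (hMa : ∀ A ∈ Ms, ∀ A' ∈ Ms, A ∪ A' ∈ Ms)
    {E0 : Set Y → (H →L[ℂ] H)} (h0 : ∀ A ∈ Ms, 0 ≤ E0 A)
    (hadd : ∀ A ∈ Ms, ∀ A' ∈ Ms, Disjoint A A' → E0 (A ∪ A') = E0 A + E0 A')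
    (hcov : ∀ v, ∀ A ∈ Ms, R v * E0 A * R v⁻¹ = E0 {x | v⁻¹ • x ∈ A})
    (hone : E0 Set.univ * R 1 = E0 Set.univ)
    (hker : ∀ w, E0 Set.univ w = 0 → R 1 w = 0)
    {sc : Set (H →L[ℂ] H)} (hsca : ∀ a ∈ sc, adjoint a = a)
    (hsc : ∀ A ∈ Ms, ∀ a ∈ sc, E0 A * a = a * E0 A) :
    ∃ E : Set Y → (H →L[ℂ] H), (∀ A ∈ Ms, 0 ≤ E A) ∧
      (∀ A ∈ Ms, ∀ A' ∈ Ms, Disjoint A A' → E (A ∪ A') = E A + E A') ∧
      E Set.univ = R 1 ∧ (∀ v, ∀ A ∈ Ms, R v * E A * R v⁻¹ = E {x | v⁻¹ • x ∈ A}) ∧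
      (∀ A ∈ Ms, ∀ a ∈ sc, E A * a = a * E A) := by
  have hinv : ∀ v, R v⁻¹ * R v = R 1 := fun v => by rw [← hmul, inv_mul_cancel]
  have hir : ∀ (v : D) (ξ η : H), ⟪ξ, R v η⟫_ℂ = ⟪R v⁻¹ ξ, η⟫_ℂ := fun v ξ η => by
    rw [← hadj, adjoint_inner_left]
  have hst : ∀ A ∈ Ms, star (E0 A) = E0 A := fun A hA => (IsSelfAdjoint.of_nonneg (h0 A hA)).star_eq
  obtain ⟨S, hS⟩ : ∃ S, S = E0 Set.univ := ⟨_, rfl⟩
  have hS0 : 0 ≤ S := by rw [hS]; exact h0 _ hMu
  have hSs : star S = S := (IsSelfAdjoint.of_nonneg hS0).star_eq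
  have hSR : S * R 1 = S := by rw [hS]; exact hone
  have hRS : R 1 * S = S := by
    have h1 := congrArg star hSR
    rw [star_mul, hSs, star_eq_adjoint, hadj, inv_one] at h1
    exact h1
  have hcommS : ∀ v, R v * S = S * R v := by
    intro v
    have h := hcov v Set.univ hMu
    have h1 : {x : Y | v⁻¹ • x ∈ (Set.univ : Set Y)} = Set.univ := by
      ext w; simp
    rw [h1, ← hS] at h
    have h2 := congrArg (fun T => T * R v) h
    simp only [mul_assoc] at h2
    rw [hinv, hSR] at h2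
    exact h2
  -- the regularisations
  have hk : ∀ k : ℕ, 0 ≤ ((k : ℝ) + 1 : ℂ) • S := by
    intro k
    refine H108.nonneg_of_inner ?_ fun ζ => ?_
    · rw [IsSelfAdjoint, star_smul, hSs]
      congr 1
      simp
    · rw [smul_apply, inner_smul_right]
      have h1 := H108.inner_nonneg_of_nonneg hS0 ζ
      have h2 : ((k : ℝ) + 1 : ℂ) = (((k : ℝ) + 1 : ℝ) : ℂ) := by push_cast; rfl
      rw [h2, Complex.re_ofReal_mul]
      positivity
  choose c D' hcomm hcx hcc hD1 hD2 using fun k => exists_reg (hk k)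
  have hcR : ∀ k v, R v * c k = c k * R v := by
    intro k v
    refine hcomm k _ ?_
    rw [mul_smul_comm, smul_mul_assoc, hcommS]
  have hcR' : ∀ k v, R v * star (c k) = star (c k) * R v := by
    intro k v
    have h1 := congrArg star (hcR k v⁻¹)
    rw [star_mul, star_mul, star_eq_adjoint (R v⁻¹), hadj, inv_inv] at h1
    exact h1.symm
  have hca : ∀ k, ∀ a ∈ sc, a * c k = c k * a := by
    intro k a ha
    refine hcomm k _ ?_
    rw [mul_smul_comm, smul_mul_assoc, hS, hsc _ hMu a ha]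
  have hca' : ∀ k, ∀ a ∈ sc, a * star (c k) = star (c k) * a := by
    intro k a ha
    have h1 := congrArg star (hca k a ha)
    rw [star_mul, star_mul, star_eq_adjoint a, hsca a ha] at h1
    exact h1.symm
  -- the approximating families
  obtain ⟨Ek, hEk⟩ : ∃ Ek : ℕ → Set Y → (H →L[ℂ] H),
      Ek = fun k A => c k * (((k : ℝ) + 1 : ℂ) • E0 A) * star (c k) := ⟨_, rfl⟩
  have hEk0 : ∀ k, ∀ A ∈ Ms, 0 ≤ Ek k A := by
    intro k A hA
    have h1 : 0 ≤ ((k : ℝ) + 1 : ℂ) • E0 A := by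
      refine H108.nonneg_of_inner ?_ fun ζ => ?_
      · rw [IsSelfAdjoint, star_smul, hst A hA]
        congr 1
        simp
      · rw [smul_apply, inner_smul_right]
        have h1 := H108.inner_nonneg_of_nonneg (h0 A hA) ζ
        have h2 : ((k : ℝ) + 1 : ℂ) = (((k : ℝ) + 1 : ℝ) : ℂ) := by push_cast; rfl
        rw [h2, Complex.re_ofReal_mul]
        positivity
    rw [hEk]
    exact star_right_conjugate_nonneg h1 (c k)
  have hEk_add : ∀ k, ∀ A ∈ Ms, ∀ A' ∈ Ms, Disjoint A A' → Ek k (A ∪ A') = Ek k A + Ek k A' := by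
    intro k A hA A' hA' h
    rw [hEk]
    simp only
    rw [hadd A hA A' hA' h, smul_add, mul_add, add_mul]
  have hEk_univ : ∀ k, Ek k Set.univ = 1 - D' k := by
    intro k
    rw [hEk]
    simp only
    rw [← hS, hcx k]
  have hEk_le : ∀ k, ∀ A ∈ Ms, Ek k A ≤ 1 := by
    intro k A hA
    have h1 := hEk_add k A hA Aᶜ (hMc A hA) disjoint_compl_right
    rw [Set.union_compl_self, hEk_univ] at h1
    have h2 : 0 ≤ D' k := by rw [← hcc k]; exact star_mul_self_nonneg _
    have h3 : Ek k A = 1 - D' k - Ek k Aᶜ := by rw [h1]; abel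
    rw [h3, sub_sub, sub_le_self_iff]
    exact add_nonneg h2 (hEk0 k Aᶜ (hMc A hA))
  have hEk_norm : ∀ k, ∀ A ∈ Ms, ‖Ek k A‖ ≤ 1 := fun k A hA =>
    H108.norm_le_of (hEk0 k A hA) (hEk_le k A hA)
  have hEk_cov : ∀ k v, ∀ A ∈ Ms, R v * Ek k A * R v⁻¹ = Ek k {x | v⁻¹ • x ∈ A} := by
    intro k v A hA
    rw [hEk]
    simp only
    have e1 : ∀ X : H →L[ℂ] H,
        R v * (c k * X * star (c k)) * R v⁻¹ = c k * (R v * X * R v⁻¹) * star (c k) := by
      intro X
      calc R v * (c k * X * star (c k)) * R v⁻¹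
          = (R v * c k) * X * (star (c k) * R v⁻¹) := by simp only [mul_assoc]
        _ = (c k * R v) * X * (R v⁻¹ * star (c k)) := by rw [hcR k v, ← hcR' k v⁻¹]
        _ = _ := by simp only [mul_assoc]
    rw [e1, mul_smul_comm, smul_mul_assoc, hcov v A hA]
  have hEk_sc : ∀ k, ∀ A ∈ Ms, ∀ a ∈ sc, Ek k A * a = a * Ek k A := by
    intro k A hA a ha
    rw [hEk]
    simp only
    obtain ⟨Z, hZ⟩ : ∃ Z, Z = ((k : ℝ) + 1 : ℂ) • E0 A := ⟨_, rfl⟩
    have hZa : Z * a = a * Z := by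
      rw [hZ, smul_mul_assoc, hsc A hA a ha, mul_smul_comm]
    rw [← hZ]
    calc c k * Z * star (c k) * a = c k * Z * (star (c k) * a) := by rw [mul_assoc _ (star (c k)) a]
      _ = c k * Z * (a * star (c k)) := by rw [← hca' k a ha]
      _ = c k * (Z * a) * star (c k) := by simp only [mul_assoc]
      _ = c k * (a * Z) * star (c k) := by rw [hZa]
      _ = (c k * a) * Z * star (c k) := by simp only [mul_assoc]
      _ = (a * c k) * Z * star (c k) := by rw [hca k a ha]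
      _ = _ := by simp only [mul_assoc]
  -- the limits
  obtain ⟨U, hU⟩ : ∃ U : Ultrafilter ℕ, (U : Filter ℕ) ≤ atTop :=
    ⟨Ultrafilter.of atTop, Ultrafilter.of_le _⟩
  obtain ⟨E, hE⟩ : ∃ E : Set Y → (H →L[ℂ] H),
      E = fun A => wl U (fun k => Ek k A) := ⟨_, rfl⟩
  have hspec : ∀ A ∈ Ms, ∀ (ξ η : H), Tendsto (fun k => ⟪ξ, Ek k A η⟫_ℂ) U
      (𝓝 ⟪ξ, E A η⟫_ℂ) := by
    intro A hA ξ η
    rw [hE]
    exact wl_spec U (fun k => hEk_norm k A hA) ξ η
  refine ⟨E, ?_, ?_, ?_, ?_, ?_⟩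
  · intro A hA
    exact H108.nonneg_of_tendsto (l := (U : Filter ℕ)) (T := fun k => Ek k A)
      (Eventually.of_forall fun k => hEk0 k A hA) (hspec A hA)
  · intro A hA A' hA' h
    refine op_ext_inner fun ξ η => ?_
    rw [add_apply, inner_add_right]
    refine tendsto_nhds_unique (hspec _ (hMa A hA A' hA') ξ η)
      (((hspec A hA ξ η).add (hspec A' hA' ξ η)).congr fun k => ?_)
    rw [hEk_add k A hA A' hA' h, add_apply, inner_add_right]
  · -- `E univ = R 1`
    have key : E Set.univ - R 1 = 0 := by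
      refine eq_zero_of_ker hSs ?_ ?_
      · rw [sub_mul, hRS, sub_eq_zero]
        refine op_ext_inner fun ξ η => ?_
        rw [mul_ap]
        refine tendsto_nhds_unique (hspec _ hMu ξ (S η)) ?_
        have h1 : Tendsto (fun k : ℕ => ‖ξ‖ * (((k : ℝ) + 1)⁻¹ * ‖η‖)) U (𝓝 0) := by
          have h2 : Tendsto (fun k : ℕ => ((k : ℝ) + 1)⁻¹) atTop (𝓝 0) := by
            have := tendsto_one_div_add_atTop_nhds_zero_nat (𝕜 := ℝ)
            simpa [one_div] using this
          have h3 := ((h2.mono_left hU).mul_const ‖η‖).const_mul ‖ξ‖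
          simpa using h3
        rw [tendsto_iff_norm_sub_tendsto_zero]
        refine squeeze_zero (fun k => norm_nonneg _) (fun k => ?_) h1
        have e1 : Ek k Set.univ (S η) - S η = -(D' k (S η)) := by
          rw [hEk_univ, sub_apply, one_apply_eq_self]; abel
        have e2 : D' k (S η) = (((k : ℝ) + 1 : ℂ))⁻¹ • (Ek k Set.univ η) := by
          have h2 : D' k * S = (((k : ℝ) + 1 : ℂ))⁻¹ • (1 - D' k) := by
            have h3 := hD2 k
            rw [mul_smul_comm] at h3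
            have h4 : 1 - D' k = ((k : ℝ) + 1 : ℂ) • (D' k * S) := by rw [← h3]; abel
            rw [h4, smul_smul, inv_mul_cancel₀, one_smul]
            have : ((k : ℝ) + 1 : ℂ) = (((k : ℝ) + 1 : ℝ) : ℂ) := by push_cast; rfl
            rw [this, Ne, Complex.ofReal_eq_zero]
            positivity
          have h5 := congrArg (fun T : H →L[ℂ] H => T η) h2
          rw [hEk_univ]
          exact h5
        rw [← inner_sub_right, e1, inner_neg_right, norm_neg]
        refine (norm_inner_le_norm _ _).trans ?_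
        rw [e2, norm_smul]
        have h6 : ‖(((k : ℝ) + 1 : ℂ))⁻¹‖ = ((k : ℝ) + 1)⁻¹ := by
          have : ((k : ℝ) + 1 : ℂ) = (((k : ℝ) + 1 : ℝ) : ℂ) := by push_cast; rfl
          rw [norm_inv, this, Complex.norm_real, Real.norm_of_nonneg (by positivity)]
        rw [h6]
        have h7 : ‖Ek k Set.univ η‖ ≤ ‖η‖ := by
          refine ((Ek k Set.univ).le_opNorm η).trans ?_
          have := hEk_norm k Set.univ hMu
          calc _ ≤ 1 * ‖η‖ := by gcongr
            _ = _ := one_mul _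
        gcongr
      · intro w hw
        have hw1 : R 1 w = 0 := hker w (by rw [← hS]; exact hw)
        rw [sub_apply, hw1, sub_zero]
        refine ext_inner_left ℂ fun ξ => ?_
        rw [inner_zero_right]
        refine tendsto_nhds_unique (hspec _ hMu ξ w) (tendsto_const_nhds.congr fun k => ?_)
        have h3 : D' k w = w := by
          have h4 := congrArg (fun T : H →L[ℂ] H => T w) (hD2 k)
          simp only [add_apply, mul_smul_comm, smul_apply, one_apply_eq_self] at h4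
          rw [mul_ap, hw, map_zero, smul_zero, add_zero] at h4
          exact h4
        rw [hEk_univ, sub_apply, one_apply_eq_self, h3, sub_self, inner_zero_right]
    exact sub_eq_zero.mp key
  · intro v A hA
    refine op_ext_inner fun ξ η => ?_
    rw [mul_ap, mul_ap, hir]
    refine tendsto_nhds_unique (hspec A hA (R v⁻¹ ξ) (R v⁻¹ η))
      ((hspec {x | v⁻¹ • x ∈ A} (hMg A hA v) ξ η).congr fun k => ?_)
    rw [← hEk_cov k v A hA, mul_ap, mul_ap, hir]
  · intro A hA a ha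
    refine op_ext_inner fun ξ η => ?_
    rw [mul_ap, mul_ap]
    have h1 := hspec A hA ξ (a η)
    have h2 := hspec A hA (a ξ) η
    have hai : ∀ ζ : H, ⟪ξ, a ζ⟫_ℂ = ⟪a ξ, ζ⟫_ℂ := fun ζ => by
      rw [← adjoint_inner_left, hsca a ha]
    rw [hai]
    refine tendsto_nhds_unique h1 (h2.congr fun k => ?_)
    rw [← hai, ← mul_ap a, ← hEk_sc k A hA a ha, mul_ap]

end Vale.Agent.P092.H132
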